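import Crest.Agent.N207.C.HC

/-!
# Row 207, block C: closure kit for the scalar heat calculus
-/

set_option autoImplicit false
set_option linter.dupNamespace false
set_option linter.unusedSectionVars false
open Set MeasureTheory Filter Topology
open scoped ContDiff

noncomputable section

namespace Crest.Agent.N207

namespace HasDt

variable {M : Type*} {a b : ℝ} {f f' g g' : ℝ → M → ℝ}

theorem add (hf : HasDt a b f f') (hg : HasDt a b g g') :
    HasDt a b (fun t x => f t x + g t x) fun t x => f' t x + g' t x :=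
  fun t ht x => (hf t ht x).add (hg t ht x)

theorem sub (hf : HasDt a b f f') (hg : HasDt a b g g') :
    HasDt a b (fun t x => f t x - g t x) fun t x => f' t x - g' t x :=
  fun t ht x => (hf t ht x).sub (hg t ht x)

theorem neg (hf : HasDt a b f f') : HasDt a b (fun t x => -f t x) fun t x => -f' t x :=
  fun t ht x => (hf t ht x).neg

theorem mul (hf : HasDt a b f f') (hg : HasDt a b g g') :
    HasDt a b (fun t x => f t x * g t x) fun t x => f' t x * g t x + f t x * g' t x :=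
  fun t ht x => (hf t ht x).mul (hg t ht x)

theorem cmul (c : ℝ) (hf : HasDt a b f f') :
    HasDt a b (fun t x => c * f t x) fun t x => c * f' t x :=
  fun t ht x => (hf t ht x).const_mul c

theorem static (u : M → ℝ) : HasDt a b (fun _ => u) fun _ _ => 0 :=
  fun t _ x => hasDerivWithinAt_const t _ (u x)

theorem time {c c' : ℝ → ℝ} (hc : ∀ t ∈ Icc a b, HasDerivAt c (c' t) t) :
    HasDt a b (fun t (_ : M) => c t) fun t _ => c' t :=
  fun t ht _ => (hc t ht).hasDerivWithinAt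

theorem comp {φ : ℝ → ℝ} {U : Set ℝ} (hU : IsOpen U) (hφ : ContDiffOn ℝ ∞ φ U)
    (hm : ∀ t ∈ Icc a b, ∀ x, f t x ∈ U) (hf : HasDt a b f f') :
    HasDt a b (fun t x => φ (f t x)) fun t x => deriv φ (f t x) * f' t x := fun t ht x => by
  have h1 : HasDerivAt φ (deriv φ (f t x)) (f t x) :=
    ((hφ.contDiffAt (hU.mem_nhds (hm t ht x))).differentiableAt (by simp)).hasDerivAt
  exact h1.comp_hasDerivWithinAt t (hf t ht x)

theorem comp' {φ φ' : ℝ → ℝ} (hφ : ∀ t ∈ Icc a b, ∀ x, HasDerivAt φ (φ' (f t x)) (f t x))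
    (hf : HasDt a b f f') :
    HasDt a b (fun t x => φ (f t x)) fun t x => φ' (f t x) * f' t x :=
  fun t ht x => (hφ t ht x).comp_hasDerivWithinAt t (hf t ht x)

theorem congr_d (hf : HasDt a b f f') (h : ∀ t ∈ Icc a b, ∀ x, g' t x = f' t x) :
    HasDt a b f g' := fun t ht x => h t ht x ▸ hf t ht x

theorem congr (hf : HasDt a b f f') (h : ∀ t ∈ Icc a b, ∀ x, g t x = f t x) :
    HasDt a b g f' := fun t ht x => (hf t ht x).congr (fun s hs => h s hs x) (h t ht x)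

theorem mono {a' b' : ℝ} (hf : HasDt a b f f') (ha : a ≤ a') (hb : b' ≤ b) : HasDt a' b' f f' :=
  fun t ht x => (hf t ⟨ha.trans ht.1, ht.2.trans hb⟩ x).mono (Icc_subset_Icc ha hb)

theorem unique (hab : a < b) (hf : HasDt a b f f') (hg : HasDt a b f g') :
    ∀ t ∈ Icc a b, ∀ x, f' t x = g' t x := fun t ht x =>
  (uniqueDiffOn_Icc hab t ht).eq_deriv _ (hf t ht x) (hg t ht x)

end HasDt

namespace HC

variable {M : Type*} [TopologicalSpace M] [MeasurableSpace M] {H : HC M}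

theorem St.mem {a b t : ℝ} (h : H.St a b) (ht : t ∈ Icc a b) : t ∈ Ioo 0 H.T :=
  ⟨h.1.trans_le ht.1, ht.2.trans_lt h.2.2⟩

theorem St.mono {a b a' b' : ℝ} (h : H.St a b) (ha : a ≤ a') (hab : a' < b') (hb : b' ≤ b) :
    H.St a' b' := ⟨h.1.trans_le ha, hab, hb.trans_lt h.2.2⟩

theorem exists_st {t : ℝ} (ht : t ∈ Ioo 0 H.T) : ∃ a b, H.St a b ∧ t ∈ Icc a b :=
  ⟨t / 2, t, ⟨by linarith [ht.1], by linarith [ht.1], ht.2⟩, ⟨by linarith [ht.1], le_rfl⟩⟩

namespace Alg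

variable (A : H.Alg)
include A

section S0
variable {u v w : M → ℝ}

theorem s0_compU {φ : ℝ → ℝ} (hφ : ContDiff ℝ ∞ φ) (hu : H.S0 u) : H.S0 fun x => φ (u x) :=
  A.s0_comp isOpen_univ hφ.contDiffOn (fun _ => mem_univ _) hu

theorem s0_cmul (c : ℝ) (hu : H.S0 u) : H.S0 fun x => c * u x := A.s0_mul (A.s0_const c) hu

theorem s0_neg (hu : H.S0 u) : H.S0 fun x => -u x := by
  simpa using A.s0_cmul (-1) hu

theorem s0_sub (hu : H.S0 u) (hv : H.S0 v) : H.S0 fun x => u x - v x := by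
  simpa [sub_eq_add_neg] using A.s0_add hu (A.s0_neg hv)

theorem s0_pow (n : ℕ) (hu : H.S0 u) : H.S0 fun x => u x ^ n :=
  A.s0_compU (φ := fun y => y ^ n) (by fun_prop) hu

theorem s0_exp (hu : H.S0 u) : H.S0 fun x => Real.exp (u x) := A.s0_compU Real.contDiff_exp hu

theorem s0_log (hu : H.S0 u) (hp : ∀ x, 0 < u x) : H.S0 fun x => Real.log (u x) :=
  A.s0_comp isOpen_Ioi (Real.contDiffOn_log.mono fun _ h => ne_of_gt h) hp hu

theorem s0_inv (hu : H.S0 u) (hp : ∀ x, 0 < u x) : H.S0 fun x => (u x)⁻¹ :=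
  A.s0_comp (φ := fun y => y⁻¹) isOpen_Ioi
    ((contDiffOn_inv ℝ).mono fun _ h => ne_of_gt h) hp hu

theorem s0_div (hu : H.S0 u) (hv : H.S0 v) (hp : ∀ x, 0 < v x) : H.S0 fun x => u x / v x := by
  simpa [div_eq_mul_inv] using A.s0_mul hu (A.s0_inv hv hp)

theorem s0_sqrt (hu : H.S0 u) (hp : ∀ x, 0 < u x) : H.S0 fun x => √(u x) :=
  A.s0_comp (φ := fun y => √y) isOpen_Ioi
    (fun _ h => (Real.contDiffAt_sqrt (ne_of_gt h)).contDiffWithinAt) hp hu

variable {t : ℝ} (ht : t ∈ Ioo 0 H.T)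
include ht

theorem s0_lap (hu : H.S0 u) : H.S0 (H.lap t u) := by
  obtain ⟨a, b, hs, hm⟩ := exists_st ht
  exact A.sm_s0 (A.sm_lap hs (A.sm_static hu)) t hm

theorem s0_gam (hu : H.S0 u) (hv : H.S0 v) : H.S0 (H.gam t u v) := by
  obtain ⟨a, b, hs, hm⟩ := exists_st ht
  exact A.sm_s0 (A.sm_gam hs (A.sm_static hu) (A.sm_static hv)) t hm

theorem s0_hh (hu : H.S0 u) : H.S0 (H.hh t u) := by
  obtain ⟨a, b, hs, hm⟩ := exists_st ht
  exact A.sm_s0 (A.sm_hh hs (A.sm_static hu)) t hm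

theorem s0_rh (hu : H.S0 u) : H.S0 (H.rh t u) := by
  obtain ⟨a, b, hs, hm⟩ := exists_st ht
  exact A.sm_s0 (A.sm_rh hs (A.sm_static hu)) t hm

theorem s0_R : H.S0 (H.R t) := by
  obtain ⟨a, b, hs, hm⟩ := exists_st ht
  exact A.sm_s0 (A.sm_R hs) t hm

theorem s0_N (k : ℕ) : H.S0 (H.N k t) := by
  obtain ⟨a, b, hs, hm⟩ := exists_st ht
  exact A.sm_s0 (A.sm_N k hs) t hm

theorem s0_Q (k : ℕ) : H.S0 (H.Q k t) := by
  obtain ⟨a, b, hs, hm⟩ := exists_st ht
  exact A.sm_s0 (A.sm_Q k hs) t hm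

theorem gam_compU {φ : ℝ → ℝ} (hφ : ContDiff ℝ ∞ φ) (hu : H.S0 u) (hw : H.S0 w) (x : M) :
    H.gam t (fun y => φ (u y)) w x = deriv φ (u x) * H.gam t u w x :=
  A.gam_comp t ht isOpen_univ hφ.contDiffOn (fun _ => mem_univ _) hu hw x

theorem lap_compU {φ : ℝ → ℝ} (hφ : ContDiff ℝ ∞ φ) (hu : H.S0 u) (x : M) :
    H.lap t (fun y => φ (u y)) x =
      deriv φ (u x) * H.lap t u x + deriv (deriv φ) (u x) * H.gam t u u x :=
  A.lap_comp t ht isOpen_univ hφ.contDiffOn (fun _ => mem_univ _) hu x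

theorem gam_const (c : ℝ) (hw : H.S0 w) (x : M) : H.gam t (fun _ => c) w x = 0 := by
  have := A.gam_compU ht (φ := fun _ => c) contDiff_const hw hw x
  simpa using this

theorem gam_const' (c : ℝ) (hw : H.S0 w) (x : M) : H.gam t w (fun _ => c) x = 0 := by
  rw [A.gam_symm t ht hw (A.s0_const c), A.gam_const ht c hw]

theorem lap_const (c : ℝ) (x : M) : H.lap t (fun _ => c) x = 0 := by
  have := A.lap_compU ht (φ := fun _ => c) contDiff_const (A.s0_const 0) x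
  simpa using this

theorem gam_cmul (c : ℝ) (hu : H.S0 u) (hw : H.S0 w) (x : M) :
    H.gam t (fun y => c * u y) w x = c * H.gam t u w x := by
  rw [A.gam_mul t ht (A.s0_const c) hu hw, A.gam_const ht c hw]; ring

theorem gam_neg (hu : H.S0 u) (hw : H.S0 w) (x : M) :
    H.gam t (fun y => -u y) w x = -H.gam t u w x := by
  simpa using A.gam_cmul ht (-1) hu hw x

theorem gam_sub (hu : H.S0 u) (hv : H.S0 v) (hw : H.S0 w) (x : M) :
    H.gam t (fun y => u y - v y) w x = H.gam t u w x - H.gam t v w x := by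
  have := A.gam_add t ht hu (A.s0_neg hv) hw x
  rw [A.gam_neg ht hv hw] at this
  simpa [sub_eq_add_neg] using this

theorem gam_add' (hu : H.S0 u) (hv : H.S0 v) (hw : H.S0 w) (x : M) :
    H.gam t w (fun y => u y + v y) x = H.gam t w u x + H.gam t w v x := by
  rw [A.gam_symm t ht hw (A.s0_add hu hv), A.gam_add t ht hu hv hw, A.gam_symm t ht hu hw,
    A.gam_symm t ht hv hw]

theorem gam_sub' (hu : H.S0 u) (hv : H.S0 v) (hw : H.S0 w) (x : M) :
    H.gam t w (fun y => u y - v y) x = H.gam t w u x - H.gam t w v x := by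
  rw [A.gam_symm t ht hw (A.s0_sub hu hv), A.gam_sub ht hu hv hw, A.gam_symm t ht hu hw,
    A.gam_symm t ht hv hw]

theorem gam_mul' (hu : H.S0 u) (hv : H.S0 v) (hw : H.S0 w) (x : M) :
    H.gam t w (fun y => u y * v y) x = u x * H.gam t w v x + v x * H.gam t w u x := by
  rw [A.gam_symm t ht hw (A.s0_mul hu hv), A.gam_mul t ht hu hv hw, A.gam_symm t ht hu hw,
    A.gam_symm t ht hv hw]

theorem gam_cmul' (c : ℝ) (hu : H.S0 u) (hw : H.S0 w) (x : M) :
    H.gam t w (fun y => c * u y) x = c * H.gam t w u x := by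
  rw [A.gam_symm t ht hw (A.s0_cmul c hu), A.gam_cmul ht c hu hw, A.gam_symm t ht hu hw]

theorem gam_neg' (hu : H.S0 u) (hw : H.S0 w) (x : M) :
    H.gam t w (fun y => -u y) x = -H.gam t w u x := by
  simpa using A.gam_cmul' ht (-1) hu hw x

theorem gam_comp' {φ : ℝ → ℝ} {U : Set ℝ} (hU : IsOpen U) (hφ : ContDiffOn ℝ ∞ φ U)
    (hm : ∀ x, u x ∈ U) (hu : H.S0 u) (hw : H.S0 w) (x : M) :
    H.gam t w (fun y => φ (u y)) x = deriv φ (u x) * H.gam t w u x := by
  rw [A.gam_symm t ht hw (A.s0_comp hU hφ hm hu), A.gam_comp t ht hU hφ hm hu hw,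
    A.gam_symm t ht hu hw]

theorem gam_comp2 {φ : ℝ → ℝ} {U : Set ℝ} (hU : IsOpen U) (hφ : ContDiffOn ℝ ∞ φ U)
    (hm : ∀ x, u x ∈ U) (hu : H.S0 u) (x : M) :
    H.gam t (fun y => φ (u y)) (fun y => φ (u y)) x = deriv φ (u x) ^ 2 * H.gam t u u x := by
  rw [A.gam_comp t ht hU hφ hm hu (A.s0_comp hU hφ hm hu), A.gam_comp' ht hU hφ hm hu hu]; ring

theorem gam_compU2 {φ : ℝ → ℝ} (hφ : ContDiff ℝ ∞ φ) (hu : H.S0 u) (x : M) :
    H.gam t (fun y => φ (u y)) (fun y => φ (u y)) x = deriv φ (u x) ^ 2 * H.gam t u u x :=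
  A.gam_comp2 ht isOpen_univ hφ.contDiffOn (fun _ => mem_univ _) hu x

theorem lap_cmul (c : ℝ) (hu : H.S0 u) (x : M) :
    H.lap t (fun y => c * u y) x = c * H.lap t u x := by
  rw [A.lap_mul t ht (A.s0_const c) hu, A.lap_const ht, A.gam_const ht c hu]; ring

theorem lap_neg (hu : H.S0 u) (x : M) : H.lap t (fun y => -u y) x = -H.lap t u x := by
  simpa using A.lap_cmul ht (-1) hu x

theorem lap_sub (hu : H.S0 u) (hv : H.S0 v) (x : M) :
    H.lap t (fun y => u y - v y) x = H.lap t u x - H.lap t v x := by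
  have := A.lap_add t ht hu (A.s0_neg hv) x
  rw [A.lap_neg ht hv] at this
  simpa [sub_eq_add_neg] using this

/-- the quadratic form `gam (u + s v) (u + s v)` -/
theorem gam_quad (hu : H.S0 u) (hv : H.S0 v) (s : ℝ) (x : M) :
    0 ≤ H.gam t u u x + 2 * s * H.gam t u v x + s ^ 2 * H.gam t v v x := by
  have h1 := A.gam_nonneg t ht (A.s0_add hu (A.s0_cmul s hv)) x
  have h2 := A.s0_cmul s hv
  rw [A.gam_add t ht hu h2 (A.s0_add hu h2), A.gam_add' ht hu h2 hu, A.gam_add' ht hu h2 h2,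
    A.gam_cmul' ht s hv hu, A.gam_cmul' ht s hv h2, A.gam_cmul ht s hv hu, A.gam_cmul ht s hv hv,
    A.gam_symm t ht hv hu] at h1
  nlinarith

/-- Cauchy-Schwarz -/
theorem gam_sq (hu : H.S0 u) (hv : H.S0 v) (x : M) :
    H.gam t u v x ^ 2 ≤ H.gam t u u x * H.gam t v v x := by
  have h := discrim_le_zero (a := H.gam t v v x) (b := 2 * H.gam t u v x) (c := H.gam t u u x)
    fun s => by have := A.gam_quad ht hu hv s x; nlinarith
  rw [discrim] at h
  nlinarith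

theorem abs_gam_le (hu : H.S0 u) (hv : H.S0 v) (x : M) :
    |H.gam t u v x| ≤ √(H.gam t u u x) * √(H.gam t v v x) := by
  rw [← Real.sqrt_mul (A.gam_nonneg t ht hu x)]
  exact Real.abs_le_sqrt (A.gam_sq ht hu hv x)

theorem gam_eq_zero (hu : H.S0 u) (hv : H.S0 v) {x : M} (h : H.gam t u u x = 0) :
    H.gam t u v x = 0 := by
  have := A.gam_sq ht hu hv x
  rw [h, zero_mul] at this
  exact pow_eq_zero_iff (two_ne_zero) |>.1 (le_antisymm this (sq_nonneg _))

theorem at_min (hu : H.S0 u) {x : M} (h : IsLocalMin u x) :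
    0 ≤ H.lap t u x ∧ H.gam t u u x = 0 := by
  have h1 := A.at_max t ht (A.s0_neg hu) h.neg
  rw [A.lap_neg ht hu, A.gam_neg ht hu (A.s0_neg hu), A.gam_neg' ht hu hu] at h1
  exact ⟨by linarith [h1.1], by linarith [h1.2]⟩

/-- locality -/
theorem local_eq (hu : H.S0 u) (hv : H.S0 v) {x : M} (h : u =ᶠ[𝓝 x] v) :
    H.lap t u x = H.lap t v x ∧ ∀ w, H.S0 w → H.gam t u w x = H.gam t v w x := by
  have hs := A.s0_sub hu hv
  have h0 : (fun y => u y - v y) =ᶠ[𝓝 x] fun _ => u x - v x := by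
    filter_upwards [h] with y hy
    rw [hy, h.eq_of_nhds]; simp
  have h1 := A.at_max t ht hs (isLocalMax_const.congr h0.symm)
  have h2 := A.at_min ht hs (isLocalMin_const.congr h0.symm)
  refine ⟨?_, fun w hw => ?_⟩
  · have := A.lap_sub ht hu hv x
    linarith [h1.1, h2.1]
  · have := A.gam_eq_zero ht hs hw h1.2
    rw [A.gam_sub ht hu hv hw] at this
    linarith

end S0

section Sm
variable {a b : ℝ} {f g : ℝ → M → ℝ}

theorem sm_const (c : ℝ) : H.Sm a b fun _ _ => c := A.sm_static (A.s0_const c)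

theorem sm_compU {φ : ℝ → ℝ} (hφ : ContDiff ℝ ∞ φ) (hf : H.Sm a b f) :
    H.Sm a b fun t x => φ (f t x) :=
  A.sm_comp isOpen_univ hφ.contDiffOn (fun _ _ _ => mem_univ _) hf

theorem sm_cmul (c : ℝ) (hf : H.Sm a b f) : H.Sm a b fun t x => c * f t x :=
  A.sm_mul (A.sm_const c) hf

theorem sm_neg (hf : H.Sm a b f) : H.Sm a b fun t x => -f t x := by
  simpa using A.sm_cmul (-1) hf

theorem sm_sub (hf : H.Sm a b f) (hg : H.Sm a b g) : H.Sm a b fun t x => f t x - g t x := by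
  simpa [sub_eq_add_neg] using A.sm_add hf (A.sm_neg hg)

theorem sm_pow (n : ℕ) (hf : H.Sm a b f) : H.Sm a b fun t x => f t x ^ n :=
  A.sm_compU (φ := fun y => y ^ n) (by fun_prop) hf


theorem sm_log (hf : H.Sm a b f) (hp : ∀ t ∈ Icc a b, ∀ x, 0 < f t x) :
    H.Sm a b fun t x => Real.log (f t x) :=
  A.sm_comp isOpen_Ioi (Real.contDiffOn_log.mono fun _ h => ne_of_gt h) hp hf

theorem sm_inv (hf : H.Sm a b f) (hp : ∀ t ∈ Icc a b, ∀ x, 0 < f t x) :
    H.Sm a b fun t x => (f t x)⁻¹ :=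
  A.sm_comp (φ := fun y => y⁻¹) isOpen_Ioi
    ((contDiffOn_inv ℝ).mono fun _ h => ne_of_gt h) hp hf

theorem sm_div (hf : H.Sm a b f) (hg : H.Sm a b g) (hp : ∀ t ∈ Icc a b, ∀ x, 0 < g t x) :
    H.Sm a b fun t x => f t x / g t x := by
  simpa [div_eq_mul_inv] using A.sm_mul hf (A.sm_inv hg hp)

theorem sm_sqrt (hf : H.Sm a b f) (hp : ∀ t ∈ Icc a b, ∀ x, 0 < f t x) :
    H.Sm a b fun t x => √(f t x) :=
  A.sm_comp (φ := fun y => √y) isOpen_Ioi
    (fun _ h => (Real.contDiffAt_sqrt (ne_of_gt h)).contDiffWithinAt) hp hf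

theorem sm_timeU {c : ℝ → ℝ} (hc : ContDiff ℝ ∞ c) : H.Sm a b fun t _ => c t :=
  A.sm_time hc.contDiffOn

/-- any time derivative of a smooth function is smooth -/
theorem sm_of_dt {f' : ℝ → M → ℝ} (hab : a < b) (hf : H.Sm a b f) (hd : HasDt a b f f') :
    H.Sm a b f' := by
  obtain ⟨g', hg, hd'⟩ := A.sm_dt hab hf
  exact A.sm_congr hg fun t ht => funext (hd.unique hab hd' t ht)

theorem sm_Pf (hs : H.St a b) : H.Sm a b H.Pf :=
  A.sm_add (A.sm_sub (A.sm_N 0 hs) (A.sm_cmul 4 (A.sm_Q 0 hs))) (A.sm_pow 2 (A.sm_R hs))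

theorem sm_cont_t (hf : H.Sm a b f) (x : M) : ContinuousOn (fun t => f t x) (Icc a b) :=
  (A.sm_cont hf).comp (f := fun t => (t, x)) (by fun_prop) fun _ ht => ⟨ht, mem_univ _⟩

/-- smooth functions are bounded on a strip -/
theorem sm_bdd [CompactSpace M] (hf : H.Sm a b f) : ∃ K, 0 ≤ K ∧ ∀ t ∈ Icc a b, ∀ x, |f t x| ≤ K := by
  obtain ⟨K, hK⟩ := (isCompact_Icc.prod isCompact_univ).exists_bound_of_continuousOn
    (A.sm_cont hf)
  exact ⟨max K 0, le_max_right _ _, fun t ht x =>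
    (hK (t, x) ⟨ht, mem_univ _⟩).trans (le_max_left _ _)⟩

end Sm

end Alg

end HC

end Crest.Agent.N207

end
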