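import Crest.Agent.N207.C.Dist
import Crest.Agent.N207.C.HC
import Crest.Agent.N207.AI.HcDef
import Crest.Agent.R247.Ms10_322

-- ▼ part N207/C/Dist2
section

/-!
# Row 207 (helper99): smooth approximation, midpoints, connected balls, local Lipschitz bound
-/

set_option autoImplicit false
open Set Filter Topology
open scoped ContDiff

noncomputable section

namespace Crest.Agent.N207.Dist

namespace GS

variable {M : Type*} [TopologicalSpace M] {G : GS M} {f h u : M → ℝ}

/-- smooth maximum with pointwise gradient bounds -/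
theorem smax (hf : G.S f) (hh : G.S h) {ε : ℝ} (hε : 0 < ε) :
    ∃ k, G.S k ∧ (∀ z, G.gam h h z ≤ 1 → (h z < f z → G.gam f f z ≤ 1) → G.gam k k z ≤ 1) ∧
      ∀ z, max (f z) (h z) ≤ k z ∧ k z ≤ max (f z) (h z) + ε := by
  obtain ⟨ψ, hψ, h01, hz, -, hb⟩ := exists_psi hε
  have s1 : G.S fun x => 1 * f x + 0 + (-1 * h x + 0) :=
    G.add (G.comp (GS.aff 1 0) hf) (G.comp (GS.aff (-1) 0) hh)
  refine ⟨fun x => ψ (1 * f x + 0 + (-1 * h x + 0)) + (1 * h x + ε),
    G.add (G.comp hψ s1) (G.comp (GS.aff 1 ε) hh), fun z b1 b2 => ?_, fun z => ?_⟩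
  · rw [gam_two hψ (GS.aff 1 ε) s1 hh, gam_two (GS.aff 1 0) (GS.aff (-1) 0) hf hh,
      G.gadd (G.comp (GS.aff 1 0) hf) (G.comp (GS.aff (-1) 0) hh) hh,
      G.gcomp (GS.aff 1 0) hf hh, G.gcomp (GS.aff (-1) 0) hh hh]
    simp only [deriv_aff]
    rcases le_or_gt (f z) (h z) with c | c
    · rw [hz _ (by linarith)]; linarith
    obtain ⟨a0, a1⟩ := h01 (1 * f z + 0 + (-1 * h z + 0))
    set l := deriv ψ (1 * f z + 0 + (-1 * h z + 0))
    have := two_gam_le hf hh z
    have := b2 c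
    have e : l ^ 2 * (1 ^ 2 * G.gam f f z + 2 * (1 * -1) * G.gam f h z + (-1) ^ 2 * G.gam h h z) +
        2 * (l * 1) * (1 * G.gam f h z + -1 * G.gam h h z) + 1 ^ 2 * G.gam h h z =
        l ^ 2 * G.gam f f z + l * (1 - l) * (2 * G.gam f h z) + (1 - l) ^ 2 * G.gam h h z := by
      ring
    rw [e]
    nlinarith [mul_nonneg a0 (sub_nonneg.2 a1), sq_nonneg l, sq_nonneg (1 - l)]
  · have := hb (1 * f z + 0 + (-1 * h z + 0))
    rcases le_total (f z) (h z) with c | c
    · rw [max_eq_right (by linarith)] at this; rw [max_eq_right c]; constructor <;> linarith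
    · rw [max_eq_left (by linarith)] at this; rw [max_eq_left c]; constructor <;> linarith

variable [PreconnectedSpace M] [CompactSpace M]

/-- smooth approximation of the distance from a point -/
theorem approx (G : GS M) (x : M) {ε : ℝ} (hε : 0 < ε) :
    ∃ f, G.L1 f ∧ ∀ z, |f z - G.d x z| ≤ ε := by
  have h1 : ∀ y, ∃ g, G.L1 g ∧ (∀ z, g z ≤ G.d x z) ∧ G.d x y - ε < g y := fun y => by
    obtain ⟨g, hg, hl⟩ := exists_lt (G := G) (x := x) (y := y) (c := G.d x y - ε) (by linarith)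
    exact ⟨_, hg.aff (a := 1) (by norm_num) (-g x), fun z => by have := hg.le_d x z; linarith,
      by linarith⟩
  choose g g1 g2 g3 using h1
  obtain ⟨s, hs⟩ := isCompact_univ.elim_finite_subcover (fun y => {z | G.d x z - ε < g y z})
    (fun y => isOpen_lt ((d_cont' x).sub continuous_const) (G.cont (g1 y).1))
    fun y _ => mem_iUnion.2 ⟨y, g3 y⟩
  have key : ∀ s : Finset M, ∀ e > 0, ∃ f, G.L1 f ∧ (∀ y ∈ s, ∀ z, g y z ≤ f z) ∧
      ∀ z, f z ≤ G.d x z + e := fun s => by
    classical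
    induction s using Finset.induction_on with
    | empty => exact fun e he => ⟨_, L1_const 0, by simp, fun z => by linarith [d_nonneg (G := G) x z]⟩
    | insert y s _ ih =>
      intro e he
      obtain ⟨f, f1, f2, f3⟩ := ih (e / 2) (by positivity)
      obtain ⟨k, k1, k2⟩ := (g1 y).smax f1 (ε := e / 2) (by positivity)
      refine ⟨k, k1, fun w hw z => ?_, fun z => ?_⟩
      · rcases Finset.mem_insert.1 hw with rfl | hw
        · exact (le_max_left _ _).trans (k2 z).1
        · exact ((f2 w hw z).trans (le_max_right _ _)).trans (k2 z).1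
      · have : max (g y z) (f z) ≤ G.d x z + e / 2 := max_le (by linarith [g2 y z]) (f3 z)
        linarith [(k2 z).2]
  obtain ⟨f, f1, f2, f3⟩ := key s ε hε
  refine ⟨f, f1, fun z => abs_le.2 ⟨?_, by linarith [f3 z]⟩⟩
  obtain ⟨y, hy, hz⟩ := mem_iUnion₂.1 (hs (mem_univ z))
  have : G.d x z - ε < g y z := hz
  linarith [f2 y hy z]

/-- almost midpoints -/
theorem mid {x y : M} {a b : ℝ} (ha : 0 < a) (hb : 0 < b) (H : G.d x y < a + b) :
    ∃ z, G.d x z < a ∧ G.d y z < b := by
  by_contra! hn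
  obtain ⟨ε, hε, he⟩ : ∃ ε > 0, G.d x y + 6 * ε < a + b := ⟨(a + b - G.d x y) / 7, by linarith,
    by linarith⟩
  obtain ⟨f, f1, f2⟩ := G.approx x hε
  obtain ⟨h, h1, h2⟩ := G.approx y hε
  obtain ⟨ψ, hψ, h01, hz, h0, hb'⟩ := exists_psi hε
  have c1 : ContDiff ℝ ∞ fun s => -ψ (a - ε - s) := by fun_prop
  have c2 : ContDiff ℝ ∞ fun s => ψ (b - ε - s) := by fun_prop
  have d0 : ∀ c s, HasDerivAt (fun s => ψ (c - s)) (-deriv ψ (c - s)) s := fun c s => by
    have := ((hψ.differentiable (by simp)) (c - s)).hasDerivAt.comp s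
      ((hasDerivAt_id s).const_sub c)
    rw [mul_neg, mul_one] at this
    exact this
  have l : G.L1 fun z => -ψ (a - ε - f z) + ψ (b - ε - h z) := by
    refine ⟨G.add (G.comp (φ := fun s => -ψ (a - ε - s)) c1 f1.1)
      (G.comp (φ := fun s => ψ (b - ε - s)) c2 h1.1), fun z => ?_⟩
    rw [gam_two (φ := fun s => -ψ (a - ε - s)) (χ := fun s => ψ (b - ε - s)) c1 c2 f1.1 h1.1,
      (d0 _ _).fun_neg.deriv, (d0 _ _).deriv]
    have := f1.2 z
    have := h1.2 z
    have := G.nn f1.1 z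
    have := G.nn h1.1 z
    rcases lt_or_ge (G.d x z) a with c | c
    · rw [hz (b - ε - h z) (by linarith [hn z c, abs_le.1 (h2 z)])]
      have := h01 (a - ε - f z)
      have : deriv ψ (a - ε - f z) ^ 2 ≤ 1 := by nlinarith
      nlinarith
    · rw [hz (a - ε - f z) (by linarith [abs_le.1 (f2 z)])]
      have := h01 (b - ε - h z)
      have : deriv ψ (b - ε - h z) ^ 2 ≤ 1 := by nlinarith
      nlinarith
  have k := l.le_d x y
  have e1 : b ≤ G.d y x := hn x (by rw [d_self]; exact ha)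
  have e2 : a ≤ G.d x y := not_lt.1 fun c => absurd (hn y c) (by rw [d_self]; exact not_le.2 hb)
  rw [h0 (a - ε - f y) (by linarith [abs_le.1 (f2 y)]),
    h0 (b - ε - h x) (by linarith [abs_le.1 (h2 x)])] at k
  have i1 := abs_le.1 (f2 x)
  have i2 := abs_le.1 (h2 y)
  rw [d_self] at i1 i2
  linarith [(hb' (a - ε - f x)).1, (hb' (b - ε - h y)).1, le_max_left (a - ε - f x) 0,
    le_max_left (b - ε - h y) 0]

/-- chains with small steps -/
theorem chain {x : M} {δ : ℝ} (hδ : 0 < δ) {P : ℕ → M → Prop} {n : ℕ}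
    (h0 : P 0 x)
    (hs : ∀ j < n, ∀ z y, G.d x z ≤ j * δ → G.d z y < δ → P j z → P (j + 1) y) :
    ∀ j < n, ∀ y, G.d x y < (j + 1) * δ → P (j + 1) y := by
  intro j
  induction j with
  | zero => exact fun hj y hy => hs 0 hj x y (by simp [d_self]) (by simpa using hy) h0
  | succ j ih =>
    intro hj y hy
    obtain ⟨z, z1, z2⟩ := mid (G := G) (x := x) (y := y) (a := (j + 1) * δ) (b := δ)
      (by positivity) hδ (by push_cast at hy; linarith)
    exact hs (j + 1) hj z y (by push_cast; exact z1.le) (by rwa [d_comm])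
      (ih (Nat.lt_of_succ_lt hj) z z1)

theorem steps {D r δ : ℝ} (h0 : 0 ≤ D) (h : D < r) (hδ : 0 < δ) :
    ∃ (n : ℕ) (e : ℝ), 0 < e ∧ e ≤ δ ∧ D < (n + 1) * e ∧ (n + 1) * e < r := by
  obtain ⟨n, hn⟩ := exists_nat_ge ((D + r) / 2 / δ)
  refine ⟨n, (D + r) / 2 / (n + 1), by have : 0 < D + r := by linarith
                                       positivity, ?_, ?_, ?_⟩
  · rw [div_le_iff₀ hδ] at hn
    rw [div_le_iff₀ (by positivity)]; nlinarith
  · rw [mul_div_cancel₀ _ (by positivity)]; linarith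
  · rw [mul_div_cancel₀ _ (by positivity)]; linarith

/-- open balls are connected -/
theorem ball_conn (G : GS M) (x : M) (r : ℝ) : IsPreconnected {y | G.d x y < r} := by
  have key : ∀ u v : Set M, IsOpen u → IsOpen v → {y | G.d x y < r} ⊆ u ∪ v → x ∈ u →
      ¬({y | G.d x y < r} ∩ (u ∩ v)).Nonempty → {y | G.d x y < r} ⊆ u := by
    intro u v hu hv hc hx hn y hy
    let _ := G.pms
    obtain ⟨r', r1, r2⟩ := exists_between (show G.d x y < r from hy)
    obtain ⟨δ, hδ, hl⟩ := lebesgue_number_lemma_of_metric (s := {z | G.d x z ≤ r'})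
      (c := fun b : Bool => if b then u else v)
      (isClosed_le (d_cont' x) continuous_const).isCompact (fun b => by cases b <;> simpa)
      fun z hz => by
        rcases hc (show G.d x z < r from lt_of_le_of_lt hz r2) with c | c
        · exact mem_iUnion.2 ⟨true, c⟩
        · exact mem_iUnion.2 ⟨false, c⟩
    obtain ⟨n, e, e0, e1, e2, e3⟩ := steps (d_nonneg x y) r1 hδ
    refine chain (G := G) e0 (P := fun _ z => z ∈ u) (n := n + 1) hx (fun j hj z w z1 z2 z3 => ?_)
      n n.lt_succ_self y e2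
    have hj' : (j : ℝ) * e ≤ (n + 1) * e :=
      mul_le_mul_of_nonneg_right (by exact_mod_cast hj.le) e0.le
    obtain ⟨b, hb⟩ := hl z (show G.d x z ≤ r' by linarith)
    cases b
    · exact absurd ⟨z, show G.d x z < r by linarith, z3, hb (Metric.mem_ball_self hδ)⟩ hn
    · exact hb (show G.d w z < δ by rw [d_comm]; linarith)
  intro u v hu hv hc ⟨p, hp, hpu⟩ ⟨q, hq, hqv⟩
  by_contra hn
  have hx : G.d x x < r := by rw [d_self]; exact (d_nonneg x p).trans_lt hp
  rcases hc hx with c | c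
  · exact hn ⟨q, hq, key u v hu hv hc c hn hq, hqv⟩
  · exact hn ⟨p, hp, hpu, key v u hv hu (by rwa [union_comm]) c (by rwa [inter_comm v u]) hp⟩

theorem lip_half (hu : G.S u) {x y : M} {r : ℝ} (H : ∀ z, G.d x z < r → G.gam u u z ≤ 1)
    (hy : 2 * G.d x y < r) : u y - u x ≤ G.d x y := by
  by_contra! hn
  have D0 := d_nonneg (G := G) x y
  obtain ⟨ε, hε, e1, e2⟩ : ∃ ε > 0, G.d x y + 2 * ε < u y - u x ∧ 2 * G.d x y + 5 * ε < r :=
    ⟨min (u y - u x - G.d x y) (r - 2 * G.d x y) / 6, by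
      have : 0 < min (u y - u x - G.d x y) (r - 2 * G.d x y) := lt_min (by linarith) (by linarith)
      positivity, by linarith [min_le_left (u y - u x - G.d x y) (r - 2 * G.d x y)],
      by linarith [min_le_right (u y - u x - G.d x y) (r - 2 * G.d x y)]⟩
  obtain ⟨f, f1, f2⟩ := G.approx x hε
  have q := f1.aff (a := 1) (by norm_num) (-(r - 2 * ε))
  obtain ⟨k, k1, k2, k3⟩ := smax (G.comp (aff (-1) (u x)) hu) q.1 hε
  obtain ⟨l, l1, l2, l3⟩ := smax (G.comp (aff (-1) 0) k1) q.1 hε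
  have L : G.L1 l := ⟨l1, fun z => l2 z (q.2 z) fun c => by
    have := (le_max_right _ _).trans (k3 z).1
    rw [gam_aff k1]
    have := k2 z (q.2 z) fun _ => by
      rw [gam_aff hu]; linarith [H z (by linarith [abs_le.1 (f2 z)])]
    linarith⟩
  have a1 := L.le_d x y
  have a2 := abs_le.1 (f2 x)
  have a3 := abs_le.1 (f2 y)
  rw [d_self] at a2
  have b1 := (le_max_left _ _).trans (k3 x).1
  have b2 : l x ≤ 0 + ε := (l3 x).2.trans (by gcongr; exact max_le (by linarith) (by linarith))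
  have b3 := (le_max_left _ _).trans (l3 y).1
  have b4 : max (-1 * u y + u x) (1 * f y + -(r - 2 * ε)) < -G.d x y - 2 * ε :=
    max_lt (by linarith) (by linarith)
  linarith [(k3 y).2]

/-- a gradient bound on a ball gives the Lipschitz bound from the centre -/
theorem lip_ball (hu : G.S u) {x y : M} {r : ℝ} (H : ∀ z, G.d x z < r → G.gam u u z ≤ 1)
    (hy : G.d x y < r) : |u y - u x| ≤ G.d x y := by
  have key : ∀ u, G.S u → (∀ z, G.d x z < r → G.gam u u z ≤ 1) → u y - u x ≤ G.d x y := by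
    intro u hu H
    refine le_of_forall_gt_imp_ge_of_dense fun c hc => ?_
    obtain ⟨r', r1, r2⟩ := exists_between (lt_min hy hc)
    have r3 := r2.trans_le (min_le_left _ _)
    obtain ⟨n, e, e0, e1, e2, e3⟩ := steps (δ := (r - r') / 2) (d_nonneg x y) r1 (by linarith)
    have := chain (G := G) e0 (P := fun j z => u z - u x ≤ j * e) (n := n + 1) (by simp)
      (fun j hj z w z1 z2 z3 => by
        have hj' : (j : ℝ) * e ≤ (n + 1) * e :=
          mul_le_mul_of_nonneg_right (by exact_mod_cast hj.le) e0.le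
        have := lip_half hu (x := z) (y := w) (r := 2 * e)
          (fun p hp => H p (by linarith [d_tri (G := G) x z p])) (by linarith)
        push_cast; linarith) n n.lt_succ_self y e2
    push_cast at this
    linarith [r2.trans_le (min_le_right _ _)]
  refine abs_le.2 ⟨?_, key u hu H⟩
  have := key _ (G.comp (aff (-1) 0) hu) fun z hz => by rw [gam_aff hu]; linarith [H z hz]
  linarith

end GS

end Crest.Agent.N207.Dist

namespace Crest.Agent.N207.HC

open _root_.Crest.Agent.N207.Dist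

variable {M : Type*} [TopologicalSpace M] [MeasurableSpace M] (H : HC M)

/-- the three chart facts behind `HC.Dist` -/
structure DistIn : Prop where
  d_eq : ∀ t ∈ Ioo 0 H.T, ∀ x y, H.d t x y =
    sSup ((fun f : M → ℝ => f y - f x) '' {f | H.S0 f ∧ ∀ z, H.gam t f f z ≤ 1})
  eqc : ∀ t ∈ Ioo 0 H.T, ∀ x, ∀ ε > 0, ∀ᶠ y in 𝓝 x, ∀ f, H.S0 f → (∀ z, H.gam t f f z ≤ 1) →
    f y - f x ≤ ε
  bump : ∀ x, ∀ U ∈ 𝓝 x, ∃ f, H.S0 f ∧ f x = 0 ∧ ∀ y ∉ U, 1 ≤ f y

variable {H} [CompactSpace M]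

omit [CompactSpace M] in
theorem Alg.s0_gam' (A : H.Alg) {t : ℝ} (ht : t ∈ Ioo 0 H.T) {u v : M → ℝ} (hu : H.S0 u)
    (hv : H.S0 v) : H.S0 (H.gam t u v) :=
  A.sm_s0 (A.sm_gam (a := t) (b := (t + H.T) / 2) ⟨ht.1, by linarith [ht.2], by linarith [ht.2]⟩
    (A.sm_static hu) (A.sm_static hv)) t ⟨le_rfl, by linarith [ht.2]⟩

/-- the carré du champ of one time slice -/
def gs (A : H.Alg) (D : H.DistIn) {t : ℝ} (ht : t ∈ Ioo 0 H.T) : GS M where
  S := H.S0
  gam := H.gam t
  cont := A.s0_cont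
  const := A.s0_const
  add := A.s0_add
  comp hφ hf := A.s0_comp isOpen_univ hφ.contDiffOn (fun _ => trivial) hf
  symm := A.gam_symm t ht
  gadd := A.gam_add t ht
  gcomp hφ hf hk := A.gam_comp t ht isOpen_univ hφ.contDiffOn (fun _ => trivial) hf hk
  nn := A.gam_nonneg t ht
  eqc := D.eqc t ht
  bump x U hU := by
    obtain ⟨f, f1, f2, f3⟩ := D.bump x U hU
    obtain ⟨C, hC⟩ := (isCompact_range (A.s0_cont (A.s0_gam' ht f1 f1))).bddAbove
    exact ⟨f, C, f1, fun z => hC ⟨z, rfl⟩, f2, f3⟩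

theorem d_gs (A : H.Alg) (D : H.DistIn) {t : ℝ} (ht : t ∈ Ioo 0 H.T) :
    H.d t = (gs A D ht).d := funext₂ (D.d_eq t ht)


end Crest.Agent.N207.HC

end
end

-- ▼ part N207/C/DistM

/-!
# Row 207 (helper99): the Riemannian distance is the intrinsic distance; `HC.Dist` for a flow
-/

set_option autoImplicit false
set_option linter.unusedSectionVars false
set_option linter.style.haveILetI false

open Bundle Set Filter Metric Manifold
open scoped ContDiff Topology NNReal ENNReal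
open Crest.Agent.R247

noncomputable section

namespace Crest.Agent.N207.Dist

/-- a function that is locally below the intrinsic distance is below it -/
theorem GS.le_of_loc {M : Type*} [TopologicalSpace M] [CompactSpace M] [PreconnectedSpace M]
    (G : GS M) {ρ : M → M → ℝ} (h0 : ∀ x, ρ x x ≤ 0) (ht : ∀ x y z, ρ x z ≤ ρ x y + ρ y z)
    (hl : ∀ p, ∀ c > 1, ∃ U ∈ 𝓝 p, ∀ y ∈ U, ∀ z ∈ U, ∃ u, G.S u ∧ (∀ w ∈ U, G.gam u u w ≤ 1) ∧
      ρ y z ≤ c * (u z - u y)) (x y : M) : ρ x y ≤ G.d x y := by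
  have key : ∀ c > 1, ∀ r, G.d x y < r → ρ x y ≤ c * r := by
    intro c hc r hr
    let _ := G.pms
    choose U hU hP using fun p => hl p c hc
    obtain ⟨δ, hδ, hL⟩ := lebesgue_number_lemma_of_metric (s := univ)
      (c := fun p => interior (U p)) isCompact_univ (fun _ => isOpen_interior)
      fun z _ => mem_iUnion.2 ⟨z, mem_interior_iff_mem_nhds.2 (hU z)⟩
    obtain ⟨n, e, e0, e1, e2, e3⟩ := GS.steps (GS.d_nonneg x y) hr hδ
    have := GS.chain (G := G) e0 (P := fun j z => ρ x z ≤ c * (j * e)) (n := n + 1)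
      (by simpa using h0 x) (fun j _ z w _ z2 z3 => by
        obtain ⟨p, hp⟩ := hL z trivial
        have hb : ∀ v, G.d z v < δ → v ∈ U p := fun v hv =>
          interior_subset (hp (show G.d v z < δ by rwa [GS.d_comm]))
        obtain ⟨u, u1, u2, u3⟩ := hP p z (hb z (by rwa [GS.d_self])) w (hb w (by linarith))
        have := (le_abs_self _).trans (GS.lip_ball u1 (fun v hv => u2 v (hb v hv))
          (show G.d z w < δ by linarith))
        have : c * (u w - u z) ≤ c * e := by gcongr; linarith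
        push_cast; linarith [ht x z w]) n n.lt_succ_self y e2
    push_cast at this
    exact this.trans (by gcongr)
  refine le_of_forall_pos_le_add fun ε hε => ?_
  have D0 := GS.d_nonneg (G := G) x y
  have := key (1 + ε / (2 * G.d x y + ε)) (by
    have : 0 < ε / (2 * G.d x y + ε) := by positivity
    linarith) (G.d x y + ε / 2) (by linarith)
  refine this.trans_eq ?_
  field_simp
  ring

section Riem

variable {n : ℕ} {X : Type*} [MetricSpace X] [ChartedSpace (EuclideanSpace ℝ (Fin n)) X]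
  [IsManifold (𝓡 n) ∞ X] [RiemannianBundle (fun p : X => TangentSpace (𝓡 n) p)]
  [IsContMDiffRiemannianBundle (𝓡 n) ∞ (EuclideanSpace ℝ (Fin n))
    (fun p : X => TangentSpace (𝓡 n) p)] [IsRiemannianManifold (𝓡 n) X]

local notation "𝔼" => EuclideanSpace ℝ (Fin n)

/-- gradient at most one implies 1-Lipschitz -/
theorem sub_le_dist {u : X → ℝ} (hu : ContMDiff (𝓡 n) 𝓘(ℝ, ℝ) ∞ u)
    (h : ∀ z, Bo84.mGam n u u z ≤ 1) (x y : X) : u y - u x ≤ dist x y := by
  have : edist (u x) (u y) ≤ edist x y := by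
    refine le_of_forall_gt fun δ hδ => ?_
    rw [IsRiemannianManifold.out (I := 𝓡 n)] at hδ
    obtain ⟨γ, h0, h1, hs, hγ⟩ := exists_lt_of_riemannianEDist_lt hδ
    have := Ms322.edist_le_of_path (I := 𝓡 n) (f := u) (C := 1) isOpen_univ
      (hu.of_le (by exact_mod_cast le_top)).contMDiffOn (fun y _ v => by
        have e := Bo84.inner_mgrad (n := n) u y v
        have l : ‖Bo84.mgrad n u y‖ ≤ 1 := by
          have := h y
          rw [Bo84.mGam_self] at this
          nlinarith [norm_nonneg (Bo84.mgrad n u y)]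
        have k : ‖(inner ℝ (Bo84.mgrad n u y) v : ℝ)‖ ≤ ‖v‖ :=
          (norm_inner_le_norm _ _).trans (by nlinarith [norm_nonneg v])
        have k' : ‖(inner ℝ (Bo84.mgrad n u y) v : ℝ)‖ₑ ≤ ‖v‖ₑ := by
          rw [← ofReal_norm, ← ofReal_norm]
          exact ENNReal.ofReal_le_ofReal k
        rw [← e, ENNReal.coe_one, one_mul]
        exact k') hs (fun _ _ => trivial)
    rw [h0, h1, ENNReal.coe_one, one_mul] at this
    exact this.trans_lt hγ
  rw [edist_dist, edist_dist, ENNReal.ofReal_le_ofReal_iff dist_nonneg, Real.dist_eq] at this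
  linarith [neg_abs_le (u x - u y)]

/-- locally, the distance is almost realised by smooth functions of gradient at most one -/
theorem loc_dist [SecondCountableTopology X] (p : X) {c : ℝ} (hc : 1 < c) :
    ∃ U ∈ 𝓝 p, ∀ y ∈ U, ∀ z ∈ U, ∃ u, ContMDiff (𝓡 n) 𝓘(ℝ, ℝ) ∞ u ∧
      (∀ w ∈ U, Bo84.mGam n u u w ≤ 1) ∧ dist y z ≤ c * (u z - u y) := by
  have : Nonempty X := ⟨p⟩
  obtain ⟨η, η0, η1⟩ : ∃ η : ℝ≥0, 0 < η ∧ (1 + η : ℝ) ^ 2 ≤ c := by
    refine ⟨⟨√c - 1, by simp [hc.le]⟩, ?_, ?_⟩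
    · show (0 : ℝ) < √c - 1
      rw [sub_pos, Real.lt_sqrt zero_le_one]; linarith
    · show (1 + (√c - 1)) ^ 2 ≤ c
      rw [add_sub_cancel, Real.sq_sqrt (by linarith)]
  have ha : chartAt 𝔼 p p ∈ (chartAt 𝔼 p).target := mem_chart_target 𝔼 p
  obtain ⟨A, hA, -⟩ := Ms322.exists_isometry (n := n) p ha
  obtain ⟨r, r0, rt, L1, L2⟩ := Ms322.exists_bilip (n := n) p ha hA η0
  obtain ⟨f⟩ : Nonempty (SmoothBumpFunction (𝓡 n) p) := inferInstance
  set V := (chartAt 𝔼 p).symm '' ball (chartAt 𝔼 p p) r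
  have Vo : IsOpen V := (chartAt 𝔼 p).symm.isOpen_image_of_subset_source isOpen_ball rt
  have pV : p ∈ V := ⟨_, mem_ball_self r0, (chartAt 𝔼 p).left_inv (mem_chart_source 𝔼 p)⟩
  refine ⟨V ∩ interior {w | f w = 1}, inter_mem (Vo.mem_nhds pV)
    (interior_mem_nhds.2 f.eventuallyEq_one), fun y hy z hz => ?_⟩
  obtain ⟨g, g1, g2⟩ := exists_dual_vector'' ℝ (A (chartAt 𝔼 p z) - A (chartAt 𝔼 p y))
  have k0 : (0 : ℝ) < 1 + η := by positivity
  set l : X → ℝ := fun w => (1 + η : ℝ)⁻¹ * g (A (chartAt 𝔼 p w)) with hl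
  have ls : ContMDiffOn (𝓡 n) 𝓘(ℝ, ℝ) ∞ l (chartAt 𝔼 p).source := by
    have h2 : ContDiff ℝ ∞ fun w : 𝔼 => (1 + η : ℝ)⁻¹ * g (A w) := by fun_prop
    exact h2.contMDiff.comp_contMDiffOn contMDiffOn_chart
  have e1 : ∀ w ∈ V ∩ interior {w | f w = 1}, f w • l w = l w := fun w hw => by
    have : w ∈ {w | f w = 1} := interior_subset hw.2
    rw [show f w = 1 from this, one_smul]
  refine ⟨fun w => f w • l w, f.contMDiff_smul ls, fun w hw => ?_, ?_⟩
  · have lp : LipschitzOnWith 1 (fun w => f w • l w) (V ∩ interior {w | f w = 1}) := by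
      refine LipschitzOnWith.of_dist_le_mul fun a ha b hb => ?_
      have := L2.dist_le_mul a ha.1 b hb.1
      rw [e1 a ha, e1 b hb, hl, Real.dist_eq, ← mul_sub, ← map_sub, abs_mul,
        abs_of_pos (inv_pos.2 k0), inv_mul_le_iff₀ k0, NNReal.coe_one, one_mul]
      have h3 := g.le_opNorm (A (chartAt 𝔼 p a) - A (chartAt 𝔼 p b))
      rw [dist_eq_norm] at this
      push_cast at this
      rw [Real.norm_eq_abs] at h3
      nlinarith [norm_nonneg (A (chartAt 𝔼 p a) - A (chartAt 𝔼 p b))]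
    have := Ms322.norm_Gr_le_of_lipschitzOn (n := n) ((Vo.inter isOpen_interior).mem_nhds hw) lp
    rw [← Ms322.norm_Gr_sq_eq_mGam]
    rw [NNReal.coe_one] at this
    nlinarith [norm_nonneg (Ms322.Gr (n := n) (fun w => f w • l w) w)]
  · show dist y z ≤ c * (f z • l z - f y • l y)
    rw [e1 y hy, e1 z hz, hl, ← mul_sub, ← map_sub, g2]
    obtain ⟨⟨a, ha, rfl⟩, -⟩ := hy
    obtain ⟨⟨b, hb, rfl⟩, -⟩ := hz
    have := L1.dist_le_mul _ (mem_image_of_mem _ ha) _ (mem_image_of_mem _ hb)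
    simp only [ContinuousLinearEquiv.symm_apply_apply] at this
    rw [(chartAt 𝔼 p).right_inv (rt ha), (chartAt 𝔼 p).right_inv (rt hb)]
    rw [dist_comm (A a), dist_eq_norm] at this
    push_cast at this
    refine this.trans ?_
    rw [RCLike.ofReal_real_eq_id, id, ← mul_assoc]
    gcongr
    rw [le_mul_inv_iff₀ k0]; linarith

variable (n X) in
/-- the carré du champ of a compact Riemannian manifold -/
def rgs [CompactSpace X] : GS X where
  S u := ContMDiff (𝓡 n) 𝓘(ℝ, ℝ) ∞ u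
  gam := Bo84.mGam n
  cont h := h.continuous
  const _ := contMDiff_const
  add := ContMDiff.add
  comp hφ hf := hφ.comp_contMDiff hf
  symm _ _ x := Bo84.mGam_comm _ _ x
  gadd hf hh _ x := Bo84.mGam_add_left (hf.mdifferentiable (by simp) x)
    (hh.mdifferentiable (by simp) x)
  gcomp hφ hf _ x := Bo84.mGam_comp_left (hφ.differentiable (by simp) _)
    (hf.mdifferentiable (by simp) x)
  nn _ x := Bo84.mGam_self_nonneg _ x
  eqc x ε hε := by
    filter_upwards [ball_mem_nhds x hε] with y hy f hf h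
    exact (sub_le_dist hf h x y).trans (mem_ball'.1 hy).le
  bump x U hU := by
    obtain ⟨f, hf⟩ := (SmoothBumpFunction.nhds_basis_support (I := 𝓡 n) hU).ex_mem
    have s : ContMDiff (𝓡 n) 𝓘(ℝ, ℝ) ∞ fun y => 1 - f y := contMDiff_const.sub f.contMDiff
    have c : Continuous (Bo84.mGam n (fun y => 1 - f y) fun y => 1 - f y) :=
      continuous_iff_continuousAt.2 fun p =>
        (Bo84.contMDiffAt_mGam (m := 0) (s p) (s p) (by simp) le_rfl).continuousAt
    obtain ⟨C, hC⟩ := (isCompact_range c).bddAbove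
    refine ⟨_, C, s, fun z => hC ⟨z, rfl⟩, by simp, fun y hy => ?_⟩
    rw [image_eq_zero_of_notMem_tsupport fun h => hy (hf h), sub_zero]

/-- **the Riemannian distance is the intrinsic distance** -/
theorem dist_eq [CompactSpace X] [PreconnectedSpace X] (x y : X) :
    dist x y = (rgs n X).d x y :=
  le_antisymm ((rgs n X).le_of_loc (ρ := dist) (fun x => (dist_self x).le) dist_triangle
    (fun p _ hc => loc_dist p hc) x y) (GS.d_le fun _ hf => sub_le_dist hf.1 hf.2 x y)

end Riem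

end Crest.Agent.N207.Dist

namespace Crest.Agent.N207

open _root_.Crest.Agent.N207.Dist

section Met

variable {n : ℕ} {M : Type*} [TopologicalSpace M] [ChartedSpace (En n) M]
  [IsManifold 𝓘(ℝ, En n) ∞ M] [T3Space M] [ConnectedSpace M] [CompactSpace M] (m : Met n M)

/-- the carré du champ of a metric: `S = Sm n`, `gam = m.gam` -/
def Met.gs : GS M := rgs n (Sl m)

theorem Met.gs_S (u : M → ℝ) : m.gs.S u ↔ Sm n u := Iff.rfl

theorem Met.gs_gam : m.gs.gam = m.gam := rfl

theorem Met.d_gs : m.d = m.gs.d := funext₂ fun x y => dist_eq (n := n) (X := Sl m) x y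

end Met

variable {M : Type*} [TopologicalSpace M] [ChartedSpace E4 M] [IsManifold 𝓘(ℝ, E4) ∞ M]
  [T3Space M] [ConnectedSpace M] [CompactSpace M] [MeasurableSpace M] [BorelSpace M]

/-- **the distance facts for a Ricci flow** -/
theorem Flow.hc_dist (F : Flow M) : F.hc.Dist where
  self t _ x := by rw [F.hc_d, Met.d_gs]; exact GS.d_self x
  symm t _ x y := by rw [F.hc_d, Met.d_gs]; exact GS.d_comm x y
  tri t _ x y z := by rw [F.hc_d, Met.d_gs]; exact GS.d_tri x y z
  cont t _ x := by rw [F.hc_d, Met.d_gs]; exact GS.d_cont' x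
  lip t _ u x y r hu := by rw [F.hc_d, Met.d_gs]; exact GS.lip_ball (G := (F.m t).gs) hu
  approx t _ x ε hε := by
    rw [F.hc_d, Met.d_gs]
    obtain ⟨f, f1, f2⟩ := (F.m t).gs.approx x hε
    exact ⟨f, f1.1, f1.2, f2⟩
  conn t _ x y r h := by
    rw [F.hc_d, Met.d_gs] at h ⊢
    exact ⟨_, (F.m t).gs.ball_conn x r, show _ < r by
      rw [GS.d_self]; exact (GS.d_nonneg x y).trans_lt h, h, fun _ hz => hz⟩

end Crest.Agent.N207

end
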