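import Mathlib
import Crest.Agent.N207.C.Max

-- ▼ part N207/C/Sob1
section

/-! Static chain, part 1: log-Sobolev at all small scales ⇒ Faber–Krahn (framework-free). -/

set_option autoImplicit false
set_option linter.unusedSectionVars false
open MeasureTheory Real Set Filter Topology
open scoped ContDiff

namespace Crest.Agent.N207.Sob

variable {X : Type*} [TopologicalSpace X]

/-- a class `S` of functions with a squared gradient norm `G`, closed under smooth composition -/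
structure St (S : (X → ℝ) → Prop) (G : (X → ℝ) → X → ℝ) : Prop where
  cont : ∀ w, S w → Continuous w
  contG : ∀ w, S w → Continuous (G w)
  nn : ∀ w, S w → ∀ x, 0 ≤ G w x
  comp : ∀ w (φ : ℝ → ℝ), S w → ContDiff ℝ ∞ φ → S (fun x => φ (w x))
  gcomp : ∀ w (φ : ℝ → ℝ), S w → ContDiff ℝ ∞ φ →
    ∀ x, G (fun x => φ (w x)) x = deriv φ (w x) ^ 2 * G w x

variable [MeasurableSpace X]

/-- log-Sobolev inequality (dimension 4) at all scales `τ ≤ τ0` -/
def LS (μ : Measure X) (S : (X → ℝ) → Prop) (G : (X → ℝ) → X → ℝ) (τ0 A : ℝ) : Prop :=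
  ∀ τ, 0 < τ → τ ≤ τ0 → ∀ w, S w → (∀ x, 0 < w x) → ∫ x, w x ^ 2 ∂μ = 1 →
    ∫ x, w x ^ 2 * log (w x ^ 2) ∂μ ≤ 4 * τ * ∫ x, G w x ∂μ + A - 2 * log τ

/-- Faber–Krahn inequality -/
def FK (μ : Measure X) (S : (X → ℝ) → Prop) (G : (X → ℝ) → X → ℝ) (τ0 K : ℝ) : Prop :=
  ∀ w, S w → (∀ x, 0 ≤ w x) → ∫ x, w x ^ 2 ∂μ ≤
    K * √(μ.real {x | w x ≠ 0}) * (4 * ∫ x, G w x ∂μ + (∫ x, w x ^ 2 ∂μ) / τ0)

variable [CompactSpace X] [OpensMeasurableSpace X] {μ : Measure X} [IsFiniteMeasure μ]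
  {S : (X → ℝ) → Prop} {G : (X → ℝ) → X → ℝ}

theorem intg {f : X → ℝ} (hf : Continuous f) : Integrable f μ := by
  obtain ⟨C, hC⟩ := (isCompact_range hf.norm).bddAbove
  exact Integrable.of_bound hf.aestronglyMeasurable C
    (Eventually.of_forall fun x => hC ⟨x, rfl⟩)

omit [CompactSpace X] [MeasurableSpace X] [OpensMeasurableSpace X] in
theorem St.affine (h : St S G) {w : X → ℝ} (hw : S w) (a b : ℝ) :
    S (fun x => a * w x + b) ∧ ∀ x, G (fun x => a * w x + b) x = a ^ 2 * G w x := by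
  have hφ : ContDiff ℝ ∞ (fun y : ℝ => a * y + b) := by fun_prop
  refine ⟨h.comp w _ hw hφ, fun x => ?_⟩
  rw [h.gcomp w _ hw hφ x]
  have : deriv (fun y : ℝ => a * y + b) (w x) = a := by
    simp
  rw [this]

/-- homogeneous form of the log-Sobolev inequality -/
theorem LS.hom (h : St S G) {τ0 A : ℝ} (hL : LS μ S G τ0 A) {τ : ℝ} (h0 : 0 < τ) (h1 : τ ≤ τ0)
    {w : X → ℝ} (hw : S w) (hp : ∀ x, 0 < w x) (hN : 0 < ∫ x, w x ^ 2 ∂μ) :
    ∫ x, w x ^ 2 * log (w x ^ 2) ∂μ ≤ (∫ x, w x ^ 2 ∂μ) * log (∫ x, w x ^ 2 ∂μ) +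
      4 * τ * ∫ x, G w x ∂μ + (∫ x, w x ^ 2 ∂μ) * (A - 2 * log τ) := by
  set N := ∫ x, w x ^ 2 ∂μ with hNd
  set c := (√N)⁻¹ with hc
  have hc2 : c ^ 2 = N⁻¹ := by rw [hc, inv_pow, sq_sqrt hN.le]
  have hc0 : 0 < c := inv_pos.2 (sqrt_pos.2 hN)
  obtain ⟨hS, hG⟩ := h.affine hw c 0
  have hwc := h.cont w hw
  have e1 : ∀ x, (c * w x + 0) ^ 2 = N⁻¹ * w x ^ 2 := fun x => by rw [add_zero, mul_pow, hc2]
  have key := hL τ h0 h1 _ hS (fun x => by have := hp x; positivity) (by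
    simp_rw [e1]; rw [integral_const_mul, ← hNd]; exact inv_mul_cancel₀ hN.ne')
  simp_rw [e1, hG, hc2] at key
  have e2 : ∀ x, N⁻¹ * w x ^ 2 * log (N⁻¹ * w x ^ 2) =
      N⁻¹ * (w x ^ 2 * log (w x ^ 2)) - N⁻¹ * log N * w x ^ 2 := fun x => by
    rw [log_mul (inv_pos.2 hN).ne' (pow_pos (hp x) 2).ne', log_inv]; ring
  simp_rw [e2] at key
  have i1 : Integrable (fun x => w x ^ 2 * log (w x ^ 2)) μ :=
    intg (continuous_mul_log.comp (hwc.pow 2))
  have i2 : Integrable (fun x => w x ^ 2) μ := intg (hwc.pow 2)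
  rw [integral_sub (i1.const_mul _) (i2.const_mul _), integral_const_mul, integral_const_mul,
    integral_const_mul, ← hNd] at key
  have := mul_le_mul_of_nonneg_left key hN.le
  have hN' := hN.ne'
  field_simp at this
  nlinarith [this]

theorem mul_log_ge {a b : ℝ} (ha : 0 ≤ a) (hb : 0 < b) : a * log b + a - b ≤ a * log a := by
  rcases ha.eq_or_lt with rfl | ha
  · simp [hb.le]
  · have := Real.log_le_sub_one_of_pos (div_pos hb ha)
    rw [log_div hb.ne' ha.ne'] at this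
    have h2 := mul_le_mul_of_nonneg_left this ha.le
    have : a * (b / a - 1) = b - a := by field_simp
    nlinarith

/-- Jensen on the support -/
theorem LS.supp (h : St S G) {τ0 A : ℝ} (hL : LS μ S G τ0 A) {τ : ℝ} (h0 : 0 < τ) (h1 : τ ≤ τ0)
    {w : X → ℝ} (hw : S w) (hp : ∀ x, 0 ≤ w x) (hN : 0 < ∫ x, w x ^ 2 ∂μ) {b : ℝ} (hb : 0 < b) :
    (∫ x, w x ^ 2 ∂μ) * log b + (∫ x, w x ^ 2 ∂μ) - b * μ.real {x | w x ≠ 0} ≤
      (∫ x, w x ^ 2 ∂μ) * log (∫ x, w x ^ 2 ∂μ) +
      4 * τ * ∫ x, G w x ∂μ + (∫ x, w x ^ 2 ∂μ) * (A - 2 * log τ) := by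
  have hwc := h.cont w hw
  have hU : MeasurableSet {x | w x ≠ 0} := (isOpen_ne_fun hwc continuous_const).measurableSet
  set n : ℝ → ℝ := fun δ => ∫ x, w x ^ 2 ∂μ + 2 * δ * ∫ x, w x ∂μ + δ ^ 2 * μ.real univ with hn
  set η : ℝ → ℝ := fun δ => |δ ^ 2 * log b + δ ^ 2 - δ ^ 2 * log (δ ^ 2)| with hη
  have hnc : Continuous n := by rw [hn]; fun_prop
  have hηc : Continuous η := by
    have : Continuous fun δ : ℝ => δ ^ 2 * log (δ ^ 2) :=
      continuous_mul_log.comp (continuous_pow 2)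
    rw [hη]; fun_prop
  have i2 : Integrable (fun x => w x ^ 2) μ := intg (hwc.pow 2)
  have i1 : Integrable w μ := intg hwc
  have hw1 : 0 ≤ ∫ x, w x ∂μ := integral_nonneg hp
  have step : ∀ δ, 0 < δ → n δ * log b + n δ - b * μ.real {x | w x ≠ 0} - η δ * μ.real univ ≤
      n δ * log (n δ) + 4 * τ * ∫ x, G w x ∂μ + n δ * (A - 2 * log τ) := by
    intro δ hδ
    obtain ⟨hS, hG⟩ := h.affine hw 1 δ
    have hv := h.cont _ hS
    have en : ∫ x, (1 * w x + δ) ^ 2 ∂μ = n δ := by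
      have : ∀ x, (1 * w x + δ) ^ 2 = w x ^ 2 + 2 * δ * w x + δ ^ 2 := fun x => by ring
      simp_rw [this]
      have i3 : Integrable (fun x => w x ^ 2 + 2 * δ * w x) μ := i2.add (i1.const_mul _)
      rw [integral_add i3 (integrable_const _),
        integral_add i2 (i1.const_mul _), integral_const_mul, integral_const, smul_eq_mul, hn]
      ring
    have hpos : 0 < n δ := by
      have : 0 ≤ δ ^ 2 * μ.real univ := by positivity
      have : 0 ≤ 2 * δ * ∫ x, w x ∂μ := by positivity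
      simp only [hn]; linarith
    have key := hL.hom h h0 h1 hS (fun x => by have := hp x; positivity) (by rw [en]; exact hpos)
    rw [en] at key
    simp_rw [hG, one_pow, one_mul (G w _)] at key
    refine le_trans ?_ key
    have iv : Integrable (fun x => (1 * w x + δ) ^ 2) μ := intg (hv.pow 2)
    have ii : Integrable ({x | w x ≠ 0}.indicator fun _ => b) μ :=
      (integrable_const b).indicator hU
    have j1 : Integrable (fun x => (1 * w x + δ) ^ 2 * log b + (1 * w x + δ) ^ 2) μ :=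
      (iv.mul_const _).add iv
    have j2 : Integrable (fun x => (1 * w x + δ) ^ 2 * log b + (1 * w x + δ) ^ 2 -
        {x | w x ≠ 0}.indicator (fun _ => b) x) μ := j1.sub ii
    have e : n δ * log b + n δ - b * μ.real {x | w x ≠ 0} - η δ * μ.real univ =
        ∫ x, ((1 * w x + δ) ^ 2 * log b + (1 * w x + δ) ^ 2 -
          {x | w x ≠ 0}.indicator (fun _ => b) x - η δ) ∂μ := by
      rw [integral_sub j2 (integrable_const _), integral_sub j1 ii, integral_add (iv.mul_const _) iv,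
        integral_mul_const, en, integral_indicator hU, setIntegral_const, integral_const]
      simp only [smul_eq_mul]; ring
    rw [e]
    refine integral_mono (j2.sub (integrable_const _))
      (intg (continuous_mul_log.comp (hv.pow 2))) fun x => ?_
    have hη0 : 0 ≤ η δ := abs_nonneg _
    by_cases hx : w x = 0
    · have : x ∉ {x | w x ≠ 0} := by simp [hx]
      simp only [indicator_of_notMem this, hx, mul_zero, zero_add, sub_zero]
      have := le_abs_self (δ ^ 2 * log b + δ ^ 2 - δ ^ 2 * log (δ ^ 2))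
      simp only [hη]; linarith
    · have : x ∈ {x | w x ≠ 0} := hx
      simp only [indicator_of_mem this]
      have := mul_log_ge (sq_nonneg (1 * w x + δ)) hb
      linarith
  have c1 : Continuous fun δ => n δ * log b + n δ - b * μ.real {x | w x ≠ 0} -
      η δ * μ.real univ := by fun_prop
  have c2 : Continuous fun δ => n δ * log (n δ) + 4 * τ * ∫ x, G w x ∂μ +
      n δ * (A - 2 * log τ) := by
    have : Continuous fun δ => n δ * log (n δ) := continuous_mul_log.comp hnc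
    fun_prop
  have := le_of_tendsto_of_tendsto (b := 𝓝[>] (0 : ℝ))
    (c1.continuousAt.tendsto.mono_left nhdsWithin_le_nhds)
    (c2.continuousAt.tendsto.mono_left nhdsWithin_le_nhds)
    (eventually_nhdsWithin_of_forall fun δ hδ => step δ hδ)
  simpa [hn, hη] using this

theorem real_pos_of_int {w : X → ℝ} (hN : 0 < ∫ x, w x ^ 2 ∂μ) :
    0 < μ.real {x | w x ≠ 0} := by
  by_contra hs
  have h0 : μ {x | w x ≠ 0} = 0 := by
    have := le_antisymm (not_lt.1 hs) measureReal_nonneg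
    rwa [measureReal_eq_zero_iff] at this
  have : (fun x => w x ^ 2) =ᵐ[μ] 0 := by
    have : ∀ᵐ x ∂μ, w x = 0 := by rw [ae_iff]; exact h0
    filter_upwards [this] with x hx; simp [hx]
  rw [integral_congr_ae this] at hN
  simp at hN

/-- log-Sobolev at all scales ⇒ Faber–Krahn -/
theorem LS.fk (h : St S G) {τ0 A : ℝ} (hτ : 0 < τ0) (hL : LS μ S G τ0 A) :
    FK μ S G τ0 (exp ((A + 1) / 2)) := by
  intro w hw hp
  set N := ∫ x, w x ^ 2 ∂μ with hNd
  set E := ∫ x, G w x ∂μ with hEd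
  set s := μ.real {x | w x ≠ 0} with hsd
  have hE : 0 ≤ E := integral_nonneg (h.nn w hw)
  have hN0 : 0 ≤ N := integral_nonneg fun x => sq_nonneg _
  rcases hN0.eq_or_lt with hN | hN
  · rw [← hN]; positivity
  have hs : 0 < s := real_pos_of_int hN
  have main : ∀ τ, 0 < τ → τ ≤ τ0 → 4 * τ * E ≤ N → τ ≤ exp ((A + 1) / 2) * √s := by
    intro τ h0 h1 h2
    have key := hL.supp h h0 h1 hw hp hN (div_pos hN hs)
    rw [← hNd, ← hEd, ← hsd, log_div hN.ne' hs.ne', div_mul_cancel₀ _ hs.ne'] at key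
    have k2 : N * (2 * log τ) ≤ N * (A + 1 + log s) := by nlinarith
    have k3 := le_of_mul_le_mul_left k2 hN
    rw [← exp_log h0, ← exp_log (sqrt_pos.2 hs), ← exp_add, log_sqrt hs.le]
    exact exp_le_exp.2 (by linarith)
  have hK : 0 ≤ exp ((A + 1) / 2) * √s := by positivity
  by_cases hc : 4 * τ0 * E ≤ N
  · have := main τ0 hτ le_rfl hc
    have h2 : N = τ0 * (N / τ0) := by field_simp
    have h3 : 0 ≤ N / τ0 := by positivity
    nlinarith [mul_le_mul_of_nonneg_right this h3, mul_nonneg hK hE]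
  · have hE' : 0 < E := by
      by_contra h'; have : E = 0 := le_antisymm (not_lt.1 h') hE
      rw [this] at hc; exact hc (by linarith)
    have := main (N / (4 * E)) (by positivity)
      (by rw [div_le_iff₀ (by positivity)]; linarith) (by field_simp; exact le_rfl)
    rw [div_le_iff₀ (by positivity)] at this
    have h3 : 0 ≤ N / τ0 := by positivity
    nlinarith [mul_nonneg hK h3]

end Crest.Agent.N207.Sob
end

-- ▼ part N207/C/Sob2
section

/-! Static chain, part 2: Nash inequality, non-collapsing. -/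

set_option autoImplicit false
set_option linter.unusedSectionVars false
open MeasureTheory Real Set Filter Topology
open scoped ContDiff

namespace Crest.Agent.N207.Sob

variable {X : Type*} [TopologicalSpace X] [MeasurableSpace X]
  [CompactSpace X] [OpensMeasurableSpace X] {μ : Measure X} [IsFiniteMeasure μ]
  {S : (X → ℝ) → Prop} {G : (X → ℝ) → X → ℝ}

/-- the optimisation in `τ` -/
theorem opt_tau {τ0 A N E s : ℝ} (hτ : 0 < τ0) (hN : 0 < N) (hE : 0 ≤ E) (hs : 0 < s)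
    (H : ∀ τ, 0 < τ → τ ≤ τ0 → -(N * log s) ≤ 4 * τ * E + N * (A - 2 * log τ)) :
    N ≤ exp ((A + 1) / 2) * √s * (4 * E + N / τ0) := by
  have main : ∀ τ, 0 < τ → τ ≤ τ0 → 4 * τ * E ≤ N → τ ≤ exp ((A + 1) / 2) * √s := by
    intro τ h0 h1 h2
    have key := H τ h0 h1
    have k2 : N * (2 * log τ) ≤ N * (A + 1 + log s) := by nlinarith
    have k3 := le_of_mul_le_mul_left k2 hN
    rw [← exp_log h0, ← exp_log (sqrt_pos.2 hs), ← exp_add, log_sqrt hs.le]
    exact exp_le_exp.2 (by linarith)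
  have hK : 0 ≤ exp ((A + 1) / 2) * √s := by positivity
  by_cases hc : 4 * τ0 * E ≤ N
  · have := main τ0 hτ le_rfl hc
    have h2 : N = τ0 * (N / τ0) := by field_simp
    have h3 : 0 ≤ N / τ0 := by positivity
    nlinarith [mul_le_mul_of_nonneg_right this h3, mul_nonneg hK hE]
  · have hE' : 0 < E := by
      by_contra h'; have : E = 0 := le_antisymm (not_lt.1 h') hE
      rw [this] at hc; exact hc (by linarith)
    have := main (N / (4 * E)) (by positivity)
      (by rw [div_le_iff₀ (by positivity)]; linarith) (by field_simp; exact le_rfl)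
    rw [div_le_iff₀ (by positivity)] at this
    have h3 : 0 ≤ N / τ0 := by positivity
    nlinarith [mul_nonneg hK h3]

/-- Nash inequality in dimension 4 for positive functions:
`N^(3/2) ≤ K ‖w‖₁ (4E + N/τ0)`, `N = ∫ w²`. -/
theorem LS.nash (h : St S G) {τ0 A : ℝ} (hτ : 0 < τ0) (hL : LS μ S G τ0 A)
    {w : X → ℝ} (hw : S w) (hp : ∀ x, 0 < w x) :
    (∫ x, w x ^ 2 ∂μ) * √(∫ x, w x ^ 2 ∂μ) ≤
      exp ((A + 1) / 2) * (∫ x, w x ∂μ) * (4 * ∫ x, G w x ∂μ + (∫ x, w x ^ 2 ∂μ) / τ0) := by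
  set N := ∫ x, w x ^ 2 ∂μ with hNd
  set E := ∫ x, G w x ∂μ with hEd
  set L := ∫ x, w x ∂μ with hLd
  have hwc := h.cont w hw
  have hE : 0 ≤ E := integral_nonneg (h.nn w hw)
  have hN0 : 0 ≤ N := integral_nonneg fun x => sq_nonneg _
  have hL0 : 0 ≤ L := integral_nonneg fun x => (hp x).le
  rcases hN0.eq_or_lt with hN | hN
  · rw [← hN]; simp only [zero_mul]; positivity
  have i2 : Integrable (fun x => w x ^ 2) μ := intg (hwc.pow 2)
  have i1 : Integrable w μ := intg hwc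
  have hLp : 0 < L := by
    rcases hL0.eq_or_lt with hL1 | hL1
    · exfalso
      have := (integral_eq_zero_iff_of_nonneg (fun x => (hp x).le) i1).1 hL1.symm
      have h2 : (fun x => w x ^ 2) =ᵐ[μ] 0 := by
        filter_upwards [this] with x hx
        simp only [Pi.zero_apply] at hx ⊢; rw [hx]; ring
      rw [hNd, integral_congr_ae h2] at hN; simp at hN
    · exact hL1
  have ent : 2 * (N * log (N / L)) ≤ ∫ x, w x ^ 2 * log (w x ^ 2) ∂μ := by
    have j1 : Integrable (fun x => w x ^ 2 * log (N / L) + w x ^ 2) μ := (i2.mul_const _).add i2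
    have e : 2 * (N * log (N / L)) =
        ∫ x, 2 * (w x ^ 2 * log (N / L) + w x ^ 2 - N / L * w x) ∂μ := by
      rw [integral_const_mul, integral_sub j1 (i1.const_mul _), integral_add (i2.mul_const _) i2,
        integral_mul_const, integral_const_mul, ← hNd, ← hLd, div_mul_cancel₀ _ hLp.ne']
      ring
    rw [e]
    refine integral_mono ((j1.sub (i1.const_mul _)).const_mul _)
      (intg (continuous_mul_log.comp (hwc.pow 2))) fun x => ?_
    have hc : 0 < N / L := div_pos hN hLp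
    have := mul_log_ge (sq_nonneg (w x)) (mul_pos hc (hp x))
    rw [log_mul hc.ne' (hp x).ne'] at this
    have e2 : log (w x ^ 2) = 2 * log (w x) := by rw [log_pow]; norm_num
    simp only [e2] at this ⊢
    linarith
  have hs : 0 < L ^ 2 / N := by positivity
  have key := opt_tau (A := A) hτ hN hE hs fun τ h0 h1 => by
    have k := hL.hom h h0 h1 hw hp hN
    rw [← hNd, ← hEd] at k
    rw [log_div hN.ne' hLp.ne'] at ent
    rw [log_div (pow_pos hLp 2).ne' hN.ne', log_pow]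
    push_cast
    linarith
  rw [sqrt_div (sq_nonneg L), sqrt_sq hL0] at key
  have hq : 0 < √N := sqrt_pos.2 hN
  have := mul_le_mul_of_nonneg_right key hq.le
  have e : exp ((A + 1) / 2) * (L / √N) * (4 * E + N / τ0) * √N =
      exp ((A + 1) / 2) * L * (4 * E + N / τ0) := by field_simp
  rwa [e] at this

/-- one step of the non-collapsing iteration -/
theorem FK.step (h : St S G) {τ0 K : ℝ} (hτ : 0 < τ0) (hK : 0 ≤ K) (hF : FK μ S G τ0 K)
    {B B' : Set X} (hB' : MeasurableSet B') (hB : MeasurableSet B) {w : X → ℝ} (hw : S w)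
    (h0 : ∀ x, 0 ≤ w x) (h1 : ∀ x, w x ≤ 1) (hin : ∀ x ∈ B', w x = 1)
    (hout : ∀ x ∉ B, w x = 0) {c : ℝ} (_hc : 0 ≤ c) (hG : ∀ x, G w x ≤ c)
    (hG0 : ∀ x ∉ B, G w x = 0) :
    μ.real B' ≤ K * √(μ.real B) * μ.real B * (4 * c + 1 / τ0) := by
  have hwc := h.cont w hw
  have i2 : Integrable (fun x => w x ^ 2) μ := intg (hwc.pow 2)
  have a1 : μ.real B' ≤ ∫ x, w x ^ 2 ∂μ := by
    rw [← integral_indicator_one hB']
    refine integral_mono ((integrable_const _).indicator hB') i2 fun x => ?_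
    by_cases hx : x ∈ B'
    · simp [indicator_of_mem hx, hin x hx]
    · simp [indicator_of_notMem hx, sq_nonneg]
  have a2 : ∫ x, w x ^ 2 ∂μ ≤ μ.real B := by
    rw [← integral_indicator_one hB]
    refine integral_mono i2 ((integrable_const _).indicator hB) fun x => ?_
    by_cases hx : x ∈ B
    · simp only [indicator_of_mem hx, Pi.one_apply]; nlinarith [h0 x, h1 x]
    · simp [indicator_of_notMem hx, hout x hx]
  have a3 : ∫ x, G w x ∂μ ≤ c * μ.real B := by
    have : c * μ.real B = ∫ x, B.indicator (fun _ => c) x ∂μ := by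
      rw [integral_indicator hB, setIntegral_const, smul_eq_mul, mul_comm]
    rw [this]
    refine integral_mono (intg (h.contG w hw)) ((integrable_const _).indicator hB) fun x => ?_
    by_cases hx : x ∈ B
    · simp [indicator_of_mem hx, hG x]
    · simp [indicator_of_notMem hx, hG0 x hx]
  have a4 : μ.real {x | w x ≠ 0} ≤ μ.real B :=
    measureReal_mono fun x hx => by by_contra hb; exact hx (hout x hb)
  have a5 := sqrt_le_sqrt a4
  have a6 : 4 * ∫ x, G w x ∂μ + (∫ x, w x ^ 2 ∂μ) / τ0 ≤ μ.real B * (4 * c + 1 / τ0) := by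
    have := div_le_div_of_nonneg_right a2 hτ.le
    have e : μ.real B / τ0 = μ.real B * (1 / τ0) := by ring
    nlinarith
  have a7 : 0 ≤ 4 * ∫ x, G w x ∂μ + (∫ x, w x ^ 2 ∂μ) / τ0 := by
    have : 0 ≤ ∫ x, G w x ∂μ := integral_nonneg (h.nn w hw)
    have : 0 ≤ ∫ x, w x ^ 2 ∂μ := integral_nonneg fun x => sq_nonneg _
    positivity
  calc μ.real B' ≤ _ := a1
    _ ≤ _ := hF w hw h0
    _ ≤ K * √(μ.real B) * (μ.real B * (4 * c + 1 / τ0)) :=
      mul_le_mul (mul_le_mul_of_nonneg_left a5 hK) a6 a7 (by positivity)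
    _ = _ := by ring

/-- the numerical iteration: `V(s/2) ≤ D V(s)^(3/2)/s²` and `V(s) ≥ c s⁴` near `0` give
`V(r) ≥ r⁴/(32 D)²`. -/
theorem noncollapse_num {V : ℝ → ℝ} {D r : ℝ} (hD : 0 < D) (hr : 0 < r)
    (hV : ∀ s, 0 ≤ V s)
    (hstep : ∀ s, 0 < s → s ≤ r → V (s / 2) ≤ D * √(V s) * V s / s ^ 2)
    (hloc : ∃ c s0 : ℝ, 0 < c ∧ 0 < s0 ∧ ∀ s, 0 < s → s ≤ s0 → c * s ^ 4 ≤ V s) :
    r ^ 4 / (32 * D) ^ 2 ≤ V r := by
  by_contra hlt
  rw [not_le] at hlt
  have ind : ∀ j : ℕ, V (r / 2 ^ j) ≤ (r / 2 ^ j) ^ 4 / (32 * D) ^ 2 / 2 ^ j := by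
    intro j
    induction j with
    | zero => simpa using hlt.le
    | succ j ih =>
      set s := r / 2 ^ j with hs
      have hs0 : 0 < s := by positivity
      have hsr : s ≤ r := div_le_self hr.le (one_le_pow₀ one_le_two)
      have e : r / 2 ^ (j + 1) = s / 2 := by rw [hs, pow_succ]; field_simp
      rw [e]
      have h1 : (1 : ℝ) ≤ 2 ^ j := one_le_pow₀ one_le_two
      have hq : √(V s) ≤ s ^ 2 / (32 * D) := by
        rw [sqrt_le_left (by positivity)]
        refine ih.trans ?_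
        have e2 : (s ^ 2 / (32 * D)) ^ 2 = s ^ 4 / (32 * D) ^ 2 := by ring
        rw [e2]
        exact div_le_self (by positivity) h1
      calc V (s / 2) ≤ D * √(V s) * V s / s ^ 2 := hstep s hs0 hsr
        _ ≤ D * (s ^ 2 / (32 * D)) * (s ^ 4 / (32 * D) ^ 2 / 2 ^ j) / s ^ 2 := by
          gcongr
          exact hV s
        _ = (s / 2) ^ 4 / (32 * D) ^ 2 / 2 ^ (j + 1) := by
          rw [pow_succ 2 j]; field_simp; ring
  obtain ⟨c, s0, hc, hs0, hl⟩ := hloc
  obtain ⟨j, hj⟩ := pow_unbounded_of_one_lt (max (r / s0) (1 / (c * (32 * D) ^ 2)))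
    (one_lt_two (α := ℝ))
  have h1 : r / 2 ^ j ≤ s0 := by
    have := (le_max_left _ _).trans hj.le
    rw [div_le_iff₀ hs0] at this
    rw [div_le_iff₀ (by positivity)]; linarith
  have h2 := (hl _ (by positivity) h1).trans (ind j)
  have h3 := (le_max_right _ _).trans_lt hj
  rw [div_lt_iff₀ (by positivity)] at h3
  have h4 : 0 < (r / 2 ^ j) ^ 4 := by positivity
  rw [div_div, le_div_iff₀ (by positivity)] at h2
  nlinarith

/-- non-collapsing: cutoffs at all scales + Faber–Krahn + local Euclidean lower bound -/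
theorem FK.vol_lower (h : St S G) {τ0 K c1 r : ℝ} (hτ : 0 < τ0) (hK : 0 < K) (hc1 : 0 ≤ c1)
    (hF : FK μ S G τ0 K) {B : ℝ → Set X} (hB : ∀ s, MeasurableSet (B s)) (hr : 0 < r)
    (hrτ : r ^ 2 ≤ τ0)
    (hcut : ∀ s, 0 < s → s ≤ r → ∃ w, S w ∧ (∀ x, 0 ≤ w x) ∧ (∀ x, w x ≤ 1) ∧
      (∀ x ∈ B (s / 2), w x = 1) ∧ (∀ x ∉ B s, w x = 0 ∧ G w x = 0) ∧ ∀ x, G w x ≤ c1 / s ^ 2)
    (hloc : ∃ c s0 : ℝ, 0 < c ∧ 0 < s0 ∧ ∀ s, 0 < s → s ≤ s0 → c * s ^ 4 ≤ μ.real (B s)) :
    r ^ 4 / (32 * (K * (4 * c1 + 1))) ^ 2 ≤ μ.real (B r) := by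
  refine noncollapse_num (V := fun s => μ.real (B s)) (by positivity) hr
    (fun s => measureReal_nonneg) (fun s hs hsr => ?_) hloc
  obtain ⟨w, hw, h0, h1, hin, hout, hG⟩ := hcut s hs hsr
  refine (hF.step h hτ hK.le (hB _) (hB _) hw h0 h1 hin (fun x hx => (hout x hx).1)
    (by positivity) hG (fun x hx => (hout x hx).2)).trans ?_
  have h2 : 1 / τ0 ≤ 1 / s ^ 2 :=
    one_div_le_one_div_of_le (by positivity) ((pow_le_pow_left₀ hs.le hsr 2).trans hrτ)
  calc K * √(μ.real (B s)) * μ.real (B s) * (4 * (c1 / s ^ 2) + 1 / τ0)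
      ≤ K * √(μ.real (B s)) * μ.real (B s) * (4 * (c1 / s ^ 2) + 1 / s ^ 2) := by gcongr
    _ = _ := by field_simp

end Crest.Agent.N207.Sob
end

-- ▼ part N207/C/Sob3
section

/-! Static chain, part 3: Faber–Krahn ⇒ Sobolev (dyadic truncation); Sobolev ⇒ log-Sobolev. -/

set_option autoImplicit false
set_option linter.unusedSectionVars false
open MeasureTheory Real Set Filter Topology
open scoped ContDiff

namespace Crest.Agent.N207.Sob

/-- the smooth step: `0` on `(-∞,0]`, `1` on `[1,∞)` -/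
noncomputable abbrev σ : ℝ → ℝ := Real.smoothTransition

theorem σ_smooth : ContDiff ℝ ∞ σ := Real.smoothTransition.contDiff

theorem σ_deriv_zero {y : ℝ} (h : y < 0 ∨ 1 < y) : deriv σ y = 0 := by
  rcases h with h | h
  · have : σ =ᶠ[𝓝 y] fun _ => 0 := by
      filter_upwards [Iio_mem_nhds h] with z hz using Real.smoothTransition.zero_of_nonpos (le_of_lt hz)
    rw [this.deriv_eq]; simp
  · have : σ =ᶠ[𝓝 y] fun _ => 1 := by
      filter_upwards [Ioi_mem_nhds h] with z hz using Real.smoothTransition.one_of_one_le (le_of_lt hz)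
    rw [this.deriv_eq]; simp

theorem σ_deriv_bd : ∃ L : ℝ, 0 < L ∧ ∀ y, deriv σ y ^ 2 ≤ L := by
  have hc : Continuous fun y => deriv σ y ^ 2 :=
    (σ_smooth.continuous_deriv (by simp)).pow 2
  obtain ⟨C, hC⟩ := (isCompact_Icc (a := (0 : ℝ)) (b := 1)).bddAbove_image hc.continuousOn
  refine ⟨max C 1, by positivity, fun y => ?_⟩
  by_cases h : y ∈ Icc (0 : ℝ) 1
  · exact (hC ⟨y, h, rfl⟩).trans (le_max_left _ _)
  · have : y < 0 ∨ 1 < y := by
      by_contra h'; rw [not_or, not_lt, not_lt] at h'; exact h h'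
    rw [σ_deriv_zero this]; simp

/-- a bound for the squared derivative of the smooth step -/
noncomputable def Lσ : ℝ := σ_deriv_bd.choose
theorem Lσ_pos : 0 < Lσ := σ_deriv_bd.choose_spec.1
theorem σ_deriv_le (y : ℝ) : deriv σ y ^ 2 ≤ Lσ := σ_deriv_bd.choose_spec.2 y

theorem deriv_σ_aff (c a b y : ℝ) :
    deriv (fun z => c * σ (a * z + b)) y = c * a * deriv σ (a * y + b) := by
  have h1 : HasDerivAt σ (deriv σ (a * y + b)) (a * y + b) :=
    (σ_smooth.differentiable (by simp) _).hasDerivAt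
  have h2 : HasDerivAt (fun z : ℝ => a * z + b) a y := by
    simpa using ((hasDerivAt_id y).const_mul a).add_const b
  have := ((h1.comp y h2).const_mul c).deriv
  simp only [Function.comp_def] at this
  rw [this]; ring

variable {X : Type*} [TopologicalSpace X] [MeasurableSpace X]
  [CompactSpace X] [OpensMeasurableSpace X] {μ : Measure X} [IsFiniteMeasure μ]
  {S : (X → ℝ) → Prop} {G : (X → ℝ) → X → ℝ}

omit [MeasurableSpace X] [CompactSpace X] [OpensMeasurableSpace X] in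
theorem St.step (h : St S G) {w : X → ℝ} (hw : S w) (c a b : ℝ) :
    S (fun x => c * σ (a * w x + b)) ∧
      ∀ x, G (fun x => c * σ (a * w x + b)) x = (c * a * deriv σ (a * w x + b)) ^ 2 * G w x := by
  have hφ : ContDiff ℝ ∞ (fun z : ℝ => c * σ (a * z + b)) :=
    contDiff_const.mul (σ_smooth.comp (by fun_prop))
  exact ⟨h.comp w _ hw hφ, fun x => by rw [h.gcomp w _ hw hφ x, deriv_σ_aff]⟩

/-- one level of the truncation -/
theorem FK.level (h : St S G) {τ0 K : ℝ} (hτ : 0 < τ0) (hK : 0 ≤ K) (hF : FK μ S G τ0 K)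
    {w : X → ℝ} (hw : S w) {l : ℝ} (hl : 0 < l) :
    l ^ 2 * μ.real {x | 2 * l < w x} ≤ K * √(μ.real {x | l < w x}) *
      (4 * Lσ * ∫ x, {x | l ≤ w x ∧ w x ≤ 2 * l}.indicator (G w) x ∂μ +
        l ^ 2 * μ.real {x | l < w x} / τ0) := by
  have hwc := h.cont w hw
  obtain ⟨hS, hG⟩ := h.step hw l l⁻¹ (-1)
  have hvc := h.cont _ hS
  have m1 : ∀ a : ℝ, MeasurableSet {x | a < w x} := fun a =>
    (isOpen_lt continuous_const hwc).measurableSet
  have m2 : MeasurableSet {x | l ≤ w x ∧ w x ≤ 2 * l} :=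
    ((isClosed_le continuous_const hwc).inter (isClosed_le hwc continuous_const)).measurableSet
  have i2 : Integrable (fun x => (l * σ (l⁻¹ * w x + -1)) ^ 2) μ := intg (hvc.pow 2)
  have z : ∀ x, ¬ l < w x → σ (l⁻¹ * w x + -1) = 0 := fun x hx =>
    Real.smoothTransition.zero_of_nonpos (by
      have : l⁻¹ * w x ≤ 1 := by rw [inv_mul_le_iff₀ hl]; linarith [not_lt.1 hx]
      linarith)
  have a1 : l ^ 2 * μ.real {x | 2 * l < w x} ≤ ∫ x, (l * σ (l⁻¹ * w x + -1)) ^ 2 ∂μ := by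
    have : l ^ 2 * μ.real {x | 2 * l < w x} =
        ∫ x, {x | 2 * l < w x}.indicator (fun _ => l ^ 2) x ∂μ := by
      rw [integral_indicator (m1 _), setIntegral_const, smul_eq_mul, mul_comm]
    rw [this]
    refine integral_mono ((integrable_const _).indicator (m1 _)) i2 fun x => ?_
    by_cases hx : x ∈ {x | 2 * l < w x}
    · have : σ (l⁻¹ * w x + -1) = 1 := Real.smoothTransition.one_of_one_le (by
        have : 2 ≤ l⁻¹ * w x := by rw [le_inv_mul_iff₀ hl]; have : 2 * l < w x := hx; linarith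
        linarith)
      simp [indicator_of_mem hx, this]
    · simp only [indicator_of_notMem hx]; positivity
  have a2 : ∫ x, (l * σ (l⁻¹ * w x + -1)) ^ 2 ∂μ ≤ l ^ 2 * μ.real {x | l < w x} := by
    have : l ^ 2 * μ.real {x | l < w x} =
        ∫ x, {x | l < w x}.indicator (fun _ => l ^ 2) x ∂μ := by
      rw [integral_indicator (m1 _), setIntegral_const, smul_eq_mul, mul_comm]
    rw [this]
    refine integral_mono i2 ((integrable_const _).indicator (m1 _)) fun x => ?_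
    by_cases hx : x ∈ {x | l < w x}
    · simp only [indicator_of_mem hx]
      have h0 := Real.smoothTransition.nonneg (l⁻¹ * w x + -1)
      have h1 := Real.smoothTransition.le_one (l⁻¹ * w x + -1)
      rw [mul_pow]
      exact mul_le_of_le_one_right (sq_nonneg _) (pow_le_one₀ h0 h1)
    · simp [indicator_of_notMem hx, z x hx]
  have a3 : ∫ x, G (fun x => l * σ (l⁻¹ * w x + -1)) x ∂μ ≤
      Lσ * ∫ x, {x | l ≤ w x ∧ w x ≤ 2 * l}.indicator (G w) x ∂μ := by
    rw [← integral_const_mul]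
    refine integral_mono (intg (h.contG _ hS))
      (((intg (h.contG w hw)).indicator m2).const_mul _) fun x => ?_
    rw [hG x, mul_inv_cancel₀ hl.ne', one_mul]
    by_cases hx : x ∈ {x | l ≤ w x ∧ w x ≤ 2 * l}
    · simp only [indicator_of_mem hx]
      exact mul_le_mul_of_nonneg_right (σ_deriv_le _) (h.nn w hw x)
    · have : l⁻¹ * w x + -1 < 0 ∨ 1 < l⁻¹ * w x + -1 := by
        by_contra h'
        rw [not_or, not_lt, not_lt] at h'
        have e1 : 1 ≤ l⁻¹ * w x := by linarith [h'.1]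
        have e2 : l⁻¹ * w x ≤ 2 := by linarith [h'.2]
        rw [le_inv_mul_iff₀ hl] at e1; rw [inv_mul_le_iff₀ hl] at e2
        exact hx ⟨by linarith, by linarith⟩
      simp [indicator_of_notMem hx, σ_deriv_zero this]
  have a4 : μ.real {x | l * σ (l⁻¹ * w x + -1) ≠ 0} ≤ μ.real {x | l < w x} :=
    measureReal_mono fun x hx => by
      by_contra hb; exact hx (by rw [z x hb, mul_zero])
  have a7 : 0 ≤ 4 * ∫ x, G (fun x => l * σ (l⁻¹ * w x + -1)) x ∂μ +
      (∫ x, (l * σ (l⁻¹ * w x + -1)) ^ 2 ∂μ) / τ0 := by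
    have : 0 ≤ ∫ x, G (fun x => l * σ (l⁻¹ * w x + -1)) x ∂μ := integral_nonneg (h.nn _ hS)
    have : 0 ≤ ∫ x, (l * σ (l⁻¹ * w x + -1)) ^ 2 ∂μ := integral_nonneg fun x => sq_nonneg _
    positivity
  refine a1.trans ((hF _ hS fun x => mul_nonneg hl.le (Real.smoothTransition.nonneg _)).trans ?_)
  refine mul_le_mul (mul_le_mul_of_nonneg_left (sqrt_le_sqrt a4) hK) ?_ a7 (by positivity)
  have := div_le_div_of_nonneg_right a2 hτ.le
  linarith

theorem pw1 {l y : ℝ} (hl : 0 < l) (hy : 0 ≤ y) (n : ℕ) (h : y ≤ l * 2 ^ (n + 1)) :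
    y ^ 4 ≤ (2 * l) ^ 4 + ∑ j ∈ Finset.range n,
      if 2 * (l * 2 ^ j) < y then 256 * (l * 2 ^ j) ^ 4 else 0 := by
  induction n with
  | zero => simpa using pow_le_pow_left₀ hy (by simpa [mul_comm] using h) 4
  | succ n ih =>
    rw [Finset.sum_range_succ]
    have hs : 0 ≤ ∑ j ∈ Finset.range n, if 2 * (l * 2 ^ j) < y then 256 * (l * 2 ^ j) ^ 4 else 0 :=
      Finset.sum_nonneg fun j _ => by split_ifs <;> positivity
    by_cases hc : 2 * (l * 2 ^ n) < y
    · rw [if_pos hc]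
      have : y ^ 4 ≤ (l * 2 ^ (n + 1 + 1)) ^ 4 := pow_le_pow_left₀ hy h 4
      have e : (l * 2 ^ (n + 1 + 1)) ^ 4 = 256 * (l * 2 ^ n) ^ 4 := by ring
      have : 0 ≤ (2 * l) ^ 4 := by positivity
      linarith
    · rw [if_neg hc, add_zero]
      exact ih (by rw [pow_succ]; linarith [not_lt.1 hc])

theorem pw2 {l y : ℝ} (hl : 0 < l) (n : ℕ) :
    (∑ j ∈ Finset.range n, if l * 2 ^ j < y then (l * 2 ^ j) ^ 2 else 0) ≤
      min (2 * y ^ 2) ((l * 2 ^ n) ^ 2 / 2) := by
  induction n with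
  | zero => simp; constructor <;> positivity
  | succ n ih =>
    rw [Finset.sum_range_succ, le_min_iff]
    rw [le_min_iff] at ih
    have e : (l * 2 ^ (n + 1)) ^ 2 / 2 = 2 * (l * 2 ^ n) ^ 2 := by ring
    have h0 : 0 < l * 2 ^ n := by positivity
    rw [e]
    split_ifs with hc
    · have := pow_le_pow_left₀ h0.le hc.le 2
      constructor <;> nlinarith [ih.2]
    · constructor <;> nlinarith [ih.1, ih.2]

theorem pw3 {l y : ℝ} (hl : 0 < l) (n : ℕ) :
    (∑ j ∈ Finset.range n, if l * 2 ^ j ≤ y ∧ y ≤ 2 * (l * 2 ^ j) then (1 : ℝ) else 0) ≤ 2 ∧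
    (l * 2 ^ n ≤ y →
      (∑ j ∈ Finset.range n, if l * 2 ^ j ≤ y ∧ y ≤ 2 * (l * 2 ^ j) then (1 : ℝ) else 0) ≤ 1) ∧
    (l * 2 ^ n < y →
      (∑ j ∈ Finset.range n, if l * 2 ^ j ≤ y ∧ y ≤ 2 * (l * 2 ^ j) then (1 : ℝ) else 0) ≤ 0) := by
  induction n with
  | zero => simp
  | succ n ih =>
    rw [Finset.sum_range_succ]
    have h0 : 0 < l * 2 ^ n := by positivity
    have e : l * 2 ^ (n + 1) = 2 * (l * 2 ^ n) := by ring
    rw [e]
    obtain ⟨i1, i2, i3⟩ := ih
    refine ⟨?_, fun h => ?_, fun h => ?_⟩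
    · split_ifs with hc
      · linarith [i2 hc.1]
      · linarith
    · have := i3 (by linarith)
      split_ifs <;> linarith
    · have := i3 (by linarith)
      rw [if_neg (fun hc => by linarith [hc.2])]; linarith

/-- Faber–Krahn ⇒ Sobolev for nonnegative functions -/
theorem FK.sob_nonneg (h : St S G) {τ0 K : ℝ} (hτ : 0 < τ0) (hK : 0 ≤ K) (hF : FK μ S G τ0 K)
    {w : X → ℝ} (hw : S w) (hp : ∀ x, 0 ≤ w x) :
    ∫ x, w x ^ 4 ∂μ ≤
      (512 * K * (4 * Lσ * ∫ x, G w x ∂μ + (∫ x, w x ^ 2 ∂μ) / τ0)) ^ 2 := by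
  have hwc := h.cont w hw
  set E := ∫ x, G w x ∂μ with hEd
  set N := ∫ x, w x ^ 2 ∂μ with hNd
  have hE : 0 ≤ E := integral_nonneg (h.nn w hw)
  have hN : 0 ≤ N := integral_nonneg fun x => sq_nonneg _
  have hL := Lσ_pos
  set B := 4 * Lσ * E + N / τ0 with hB
  have hB0 : 0 ≤ B := by positivity
  have m1 : ∀ a : ℝ, MeasurableSet {x | a < w x} := fun a =>
    (isOpen_lt continuous_const hwc).measurableSet
  have m2 : ∀ l : ℝ, MeasurableSet {x | l ≤ w x ∧ w x ≤ 2 * l} := fun l =>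
    ((isClosed_le continuous_const hwc).inter (isClosed_le hwc continuous_const)).measurableSet
  have iG : Integrable (G w) μ := intg (h.contG w hw)
  have i2 : Integrable (fun x => w x ^ 2) μ := intg (hwc.pow 2)
  set m : ℝ → ℝ := fun l => μ.real {x | l < w x} with hm
  set e : ℝ → ℝ := fun l => ∫ x, {x | l ≤ w x ∧ w x ≤ 2 * l}.indicator (G w) x ∂μ with he
  set b : ℝ → ℝ := fun l => 4 * Lσ * e l + l ^ 2 * m l / τ0 with hb
  have m0 : ∀ l, 0 ≤ m l := fun l => measureReal_nonneg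
  have e0 : ∀ l, 0 ≤ e l := fun l =>
    integral_nonneg fun x => indicator_nonneg (fun y _ => h.nn w hw y) x
  have b0 : ∀ l, 0 ≤ b l := fun l => by have := e0 l; have := m0 l; simp only [hb]; positivity
  have mi : ∀ l c : ℝ, c * m l = ∫ x, (if l < w x then c else 0) ∂μ := fun l c => by
    have : (fun x => if l < w x then c else 0) = {x | l < w x}.indicator fun _ => c := by
      funext x; simp [indicator_apply]
    rw [this, integral_indicator (m1 _), setIntegral_const, smul_eq_mul, mul_comm]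
  have ii : ∀ l c : ℝ, Integrable (fun x => if l < w x then c else 0) μ := fun l c => by
    have : (fun x => if l < w x then c else 0) = {x | l < w x}.indicator fun _ => c := by
      funext x; simp [indicator_apply]
    rw [this]; exact (integrable_const _).indicator (m1 _)
  -- sums over dyadic levels
  have sb : ∀ l, 0 < l → ∀ n, ∑ j ∈ Finset.range n, b (l * 2 ^ j) ≤ 2 * B := by
    intro l hl n
    have s1 : ∑ j ∈ Finset.range n, e (l * 2 ^ j) ≤ 2 * E := by
      simp only [he]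
      rw [← integral_finsetSum _ fun j _ => iG.indicator (m2 _), hEd, ← integral_const_mul]
      refine integral_mono (integrable_finsetSum _ fun j _ => iG.indicator (m2 _))
        (iG.const_mul _) fun x => ?_
      have := mul_le_mul_of_nonneg_right (pw3 (y := w x) hl n).1 (h.nn w hw x)
      rw [Finset.sum_mul] at this
      refine le_trans (le_of_eq (Finset.sum_congr rfl fun j _ => ?_)) this
      simp [indicator_apply]
    have s2 : ∑ j ∈ Finset.range n, (l * 2 ^ j) ^ 2 * m (l * 2 ^ j) ≤ 2 * N := by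
      simp only [mi]
      rw [← integral_finsetSum _ fun j _ => ii _ _, hNd, ← integral_const_mul]
      exact integral_mono (integrable_finsetSum _ fun j _ => ii _ _) (i2.const_mul _) fun x =>
        (pw2 hl n).trans (min_le_left _ _)
    simp only [hb]
    rw [Finset.sum_add_distrib, ← Finset.mul_sum, ← Finset.sum_div]
    have := div_le_div_of_nonneg_right s2 hτ.le
    have e2 : 2 * N / τ0 = 2 * (N / τ0) := by ring
    nlinarith
  have bB : ∀ l, 0 < l → b l ≤ 2 * B := fun l hl => by simpa using sb l hl 1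
  obtain ⟨W, hW⟩ := (isCompact_range hwc).bddAbove
  have hW' : ∀ x, w x ≤ W := fun x => hW ⟨x, rfl⟩
  -- the weak bound
  have lev : ∀ l, 0 < l → (2 * l) ^ 4 * m (2 * l) ≤ 16 * K * √(l ^ 4 * m l) * b l := by
    intro l hl
    have := hF.level h hτ hK hw hl
    have e1 : √(l ^ 4 * m l) = l ^ 2 * √(m l) := by
      rw [sqrt_mul (by positivity), show l ^ 4 = (l ^ 2) ^ 2 by ring, sqrt_sq (by positivity)]
    rw [e1]
    have := mul_le_mul_of_nonneg_left this (show 0 ≤ 16 * l ^ 2 by positivity)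
    calc (2 * l) ^ 4 * m (2 * l) = 16 * l ^ 2 * (l ^ 2 * m (2 * l)) := by ring
      _ ≤ _ := this
      _ = _ := by simp only [hb, he, hm]; ring
  have bdd : BddAbove (range fun l : Ioi (0 : ℝ) => l.1 ^ 4 * m l.1) := by
    refine ⟨W ^ 4 * μ.real univ, ?_⟩
    rintro _ ⟨⟨l, hl⟩, rfl⟩
    by_cases hc : l ≤ W
    · exact mul_le_mul (pow_le_pow_left₀ (le_of_lt hl) hc 4) (measureReal_mono (subset_univ _))
        (m0 _) (by positivity)
    · have : {x | l < w x} = ∅ := by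
        ext x; simp only [mem_ofPred_eq, mem_empty_iff_false, iff_false, not_lt]
        linarith [hW' x, not_le.1 hc]
      simp only [hm, this, measureReal_empty, mul_zero]; positivity
  set a := ⨆ l : Ioi (0 : ℝ), l.1 ^ 4 * m l.1 with ha
  have al : ∀ l, 0 < l → l ^ 4 * m l ≤ a := fun l hl => le_ciSup bdd ⟨l, hl⟩
  have a0 : 0 ≤ a := le_trans (by have := m0 1; positivity) (al 1 one_pos)
  have lev2 : ∀ l, 0 < l → (2 * l) ^ 4 * m (2 * l) ≤ 16 * K * √a * b l := fun l hl =>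
    (lev l hl).trans (mul_le_mul_of_nonneg_right
      (mul_le_mul_of_nonneg_left (sqrt_le_sqrt (al l hl)) (by positivity)) (b0 l))
  have aa : a ≤ 16 * K * √a * (2 * B) := by
    have : Nonempty (Ioi (0 : ℝ)) := ⟨⟨1, mem_Ioi.2 one_pos⟩⟩
    refine ciSup_le fun ⟨l, hl⟩ => ?_
    have hl' : 0 < l / 2 := half_pos hl
    have := lev2 (l / 2) hl'
    rw [show 2 * (l / 2) = l by ring] at this
    exact this.trans (mul_le_mul_of_nonneg_left (bB _ hl') (by positivity))
  have sa : √a ≤ 32 * K * B := by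
    rcases (sqrt_nonneg a).eq_or_lt with h0 | h0
    · rw [← h0]; positivity
    · have : √a * √a ≤ √a * (32 * K * B) := by rw [mul_self_sqrt a0]; linarith
      exact le_of_mul_le_mul_left this h0
  have fin : ∀ l, 0 < l → ∫ x, w x ^ 4 ∂μ ≤ (2 * l) ^ 4 * μ.real univ + (512 * K * B) ^ 2 := by
    intro l hl
    obtain ⟨n, hn⟩ := pow_unbounded_of_one_lt (W / l) (one_lt_two (α := ℝ))
    have hn' : ∀ x, w x ≤ l * 2 ^ (n + 1) := fun x => by
      rw [div_lt_iff₀ hl] at hn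
      have : 0 < l * 2 ^ n := by positivity
      rw [pow_succ]; nlinarith [hW' x]
    have s := integrable_finsetSum (μ := μ) (Finset.range n) fun j _ =>
      ii (2 * (l * 2 ^ j)) (256 * (l * 2 ^ j) ^ 4)
    have c1 := integral_mono (intg (f := fun x => w x ^ 4) (hwc.pow 4)) ((integrable_const ((2 * l) ^ 4)).add s)
      fun x => pw1 hl (hp x) n (hn' x)
    simp only [Pi.add_apply] at c1
    rw [integral_add (integrable_const _) s, integral_const,
      integral_finsetSum _ fun j _ => ii _ _, smul_eq_mul] at c1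
    simp only [← mi] at c1
    have c2 : ∑ j ∈ Finset.range n, 256 * (l * 2 ^ j) ^ 4 * m (2 * (l * 2 ^ j)) ≤
        ∑ j ∈ Finset.range n, 256 * K * √a * b (l * 2 ^ j) := Finset.sum_le_sum fun j _ => by
      have := lev2 (l * 2 ^ j) (by positivity)
      nlinarith
    rw [← Finset.mul_sum] at c2
    have c3 : 256 * K * √a * ∑ j ∈ Finset.range n, b (l * 2 ^ j) ≤
        256 * K * (32 * K * B) * (2 * B) :=
      mul_le_mul (mul_le_mul_of_nonneg_left sa (by positivity)) (sb l hl n)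
        (Finset.sum_nonneg fun j _ => b0 _) (by positivity)
    have c4 : 0 ≤ (K * B) ^ 2 := sq_nonneg _
    have c5 : 256 * K * (32 * K * B) * (2 * B) = 16384 * (K * B) ^ 2 := by ring
    have c6 : (512 * K * B) ^ 2 = 262144 * (K * B) ^ 2 := by ring
    rw [mul_comm (μ.real univ)] at c1
    linarith
  have c1 : Continuous fun l : ℝ => (2 * l) ^ 4 * μ.real univ + (512 * K * B) ^ 2 := by fun_prop
  have := ge_of_tendsto (x := 𝓝[>] (0 : ℝ))
    (c1.continuousAt.tendsto.mono_left nhdsWithin_le_nhds)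
    (eventually_nhdsWithin_of_forall fun δ hδ => fin δ hδ)
  simpa using this

/-- Sobolev inequality in dimension 4 -/
def SobI (μ : Measure X) (S : (X → ℝ) → Prop) (G : (X → ℝ) → X → ℝ) (A B : ℝ) : Prop :=
  ∀ w, S w → √(∫ x, w x ^ 4 ∂μ) ≤ A * ∫ x, G w x ∂μ + B * ∫ x, w x ^ 2 ∂μ

/-- Faber–Krahn ⇒ Sobolev -/
theorem FK.sob (h : St S G) {τ0 K : ℝ} (hτ : 0 < τ0) (hK : 0 ≤ K) (hF : FK μ S G τ0 K) :
    SobI μ S G (2048 * K * Lσ) (512 * K / τ0) := by
  intro w hw
  have hwc := h.cont w hw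
  have hL := Lσ_pos
  have i2 : Integrable (fun x => w x ^ 2) μ := intg (hwc.pow 2)
  have step : ∀ δ : ℝ, 0 < δ → √(∫ x, w x ^ 4 ∂μ) ≤ 2048 * K * Lσ * ∫ x, G w x ∂μ +
      512 * K / τ0 * (∫ x, w x ^ 2 ∂μ + δ * μ.real univ) := by
    intro δ hδ
    have hp : ∀ y : ℝ, 0 < y ^ 2 + δ := fun y => by positivity
    have hφ : ContDiff ℝ ∞ fun y : ℝ => √(y ^ 2 + δ) :=
      ContDiff.sqrt (by fun_prop) fun y => (hp y).ne'
    have hS := h.comp w _ hw hφ
    have hG : ∀ x, G (fun x => √(w x ^ 2 + δ)) x ≤ G w x := fun x => by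
      rw [h.gcomp w _ hw hφ x]
      have d1 : HasDerivAt (fun y : ℝ => y ^ 2 + δ) (2 * w x) (w x) := by
        simpa using (hasDerivAt_pow 2 (w x)).add_const δ
      rw [(d1.sqrt (hp _).ne').deriv]
      refine mul_le_of_le_one_left (h.nn w hw x) ?_
      rw [div_pow, mul_pow, mul_pow, sq_sqrt (hp _).le, div_le_one (by have := hp (w x); positivity)]
      nlinarith
    have key := hF.sob_nonneg h hτ hK hS fun x => sqrt_nonneg _
    have e2 : ∫ x, √(w x ^ 2 + δ) ^ 2 ∂μ = ∫ x, w x ^ 2 ∂μ + δ * μ.real univ := by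
      simp_rw [fun x => sq_sqrt (hp (w x)).le]
      rw [integral_add i2 (integrable_const _), integral_const, smul_eq_mul, mul_comm]
    have e3 : ∫ x, G (fun x => √(w x ^ 2 + δ)) x ∂μ ≤ ∫ x, G w x ∂μ :=
      integral_mono (intg (h.contG _ hS)) (intg (h.contG w hw)) hG
    have e4 : ∫ x, w x ^ 4 ∂μ ≤ ∫ x, √(w x ^ 2 + δ) ^ 4 ∂μ :=
      integral_mono (intg (f := fun x => w x ^ 4) (hwc.pow 4))
        (intg (f := fun x => √(w x ^ 2 + δ) ^ 4) ((h.cont _ hS).pow 4)) fun x => by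
        have : √(w x ^ 2 + δ) ^ 4 = (w x ^ 2 + δ) ^ 2 := by
          rw [show (4 : ℕ) = 2 * 2 from rfl, pow_mul, sq_sqrt (hp _).le]
        simp only [this]; nlinarith [sq_nonneg (w x)]
    have g0 : 0 ≤ ∫ x, G (fun x => √(w x ^ 2 + δ)) x ∂μ := integral_nonneg (h.nn _ hS)
    have n0 : 0 ≤ ∫ x, √(w x ^ 2 + δ) ^ 2 ∂μ := integral_nonneg fun x => sq_nonneg _
    refine (sqrt_le_sqrt (e4.trans key)).trans ?_
    rw [sqrt_sq (by positivity), e2]
    have := mul_le_mul_of_nonneg_left e3 (show 0 ≤ 2048 * K * Lσ by positivity)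
    have e5 : 512 * K * (4 * Lσ * ∫ x, G (fun x => √(w x ^ 2 + δ)) x ∂μ +
        (∫ x, w x ^ 2 ∂μ + δ * μ.real univ) / τ0) =
        2048 * K * Lσ * ∫ x, G (fun x => √(w x ^ 2 + δ)) x ∂μ +
        512 * K / τ0 * (∫ x, w x ^ 2 ∂μ + δ * μ.real univ) := by ring
    linarith
  have c1 : Continuous fun δ : ℝ => 2048 * K * Lσ * ∫ x, G w x ∂μ +
      512 * K / τ0 * (∫ x, w x ^ 2 ∂μ + δ * μ.real univ) := by fun_prop
  have := ge_of_tendsto (x := 𝓝[>] (0 : ℝ))
    (c1.continuousAt.tendsto.mono_left nhdsWithin_le_nhds)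
    (eventually_nhdsWithin_of_forall fun δ hδ => step δ hδ)
  simpa using this

/-- Sobolev ⇒ log-Sobolev at all scales `τ ≤ τ0` -/
theorem SobI.ls (h : St S G) {A B : ℝ} (hA : 0 < A) (hB : 0 ≤ B) (hS : SobI μ S G A B) (τ0 : ℝ) :
    LS μ S G τ0 (2 * log (A / 2) + 4 * τ0 * B / A) := by
  intro τ h0 h1 w hw hp hN
  have hwc := h.cont w hw
  have i2 : Integrable (fun x => w x ^ 2) μ := intg (hwc.pow 2)
  have i4 : Integrable (fun x => w x ^ 4) μ := intg (hwc.pow 4)
  have key := hS w hw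
  rw [hN, mul_one] at key
  set c := ∫ x, w x ^ 4 ∂μ with hc
  have hc1 : 0 < c := by
    rcases (integral_nonneg (μ := μ) (f := fun x => w x ^ 4) fun x => by positivity).eq_or_lt
      with h4 | h4
    · exfalso
      have := (integral_eq_zero_iff_of_nonneg (fun x => by positivity) i4).1 h4.symm
      have h2 : (fun x => w x ^ 2) =ᵐ[μ] 0 := by
        filter_upwards [this] with x hx
        simp only [Pi.zero_apply] at hx ⊢
        exact absurd hx (pow_pos (hp x) 4).ne'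
      rw [integral_congr_ae h2] at hN; simp at hN
    · exact h4
  have a1 : ∫ x, w x ^ 2 * log (w x ^ 2) ∂μ ≤ log c := by
    have j1 : Integrable (fun x => w x ^ 2 * log c + c⁻¹ * w x ^ 4) μ :=
      (i2.mul_const _).add (i4.const_mul _)
    have e : log c = ∫ x, (w x ^ 2 * log c + c⁻¹ * w x ^ 4 - w x ^ 2) ∂μ := by
      rw [integral_sub j1 i2, integral_add (i2.mul_const _) (i4.const_mul _), integral_mul_const,
        integral_const_mul, hN, ← hc, inv_mul_cancel₀ hc1.ne']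
      ring
    rw [e]
    refine integral_mono (intg (continuous_mul_log.comp (hwc.pow 2))) (j1.sub i2) fun x => ?_
    have hw2 : 0 < w x ^ 2 := pow_pos (hp x) 2
    have := Real.log_le_sub_one_of_pos (div_pos hw2 hc1)
    rw [log_div hw2.ne' hc1.ne'] at this
    have h2 := mul_le_mul_of_nonneg_left this hw2.le
    have e2 : w x ^ 2 * (w x ^ 2 / c - 1) = c⁻¹ * w x ^ 4 - w x ^ 2 := by ring
    simp only
    nlinarith
  have hs : 0 < A / (2 * τ) := by positivity
  have hq : 0 < √c := sqrt_pos.2 hc1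
  have a2 := Real.log_le_sub_one_of_pos (div_pos hq hs)
  rw [log_div hq.ne' hs.ne', log_sqrt hc1.le, show A / (2 * τ) = A / 2 / τ by ring,
    log_div (by positivity) h0.ne'] at a2
  have a3 : √c / (A / 2 / τ) ≤ 2 * τ * ∫ x, G w x ∂μ + 2 * τ0 * B / A := by
    have e : √c / (A / 2 / τ) = 2 * τ / A * √c := by field_simp
    have e2 : 2 * τ / A * (A * ∫ x, G w x ∂μ + B) = 2 * τ * ∫ x, G w x ∂μ + 2 * τ * B / A := by
      field_simp
    have : 2 * τ * B / A ≤ 2 * τ0 * B / A := by gcongr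
    have := mul_le_mul_of_nonneg_left key (show 0 ≤ 2 * τ / A by positivity)
    linarith
  have e : 4 * τ0 * B / A = 2 * (2 * τ0 * B / A) := by ring
  linarith

end Crest.Agent.N207.Sob
end

-- ▼ part N207/C/W0

/-! Row 207, block C: the `W` functional at a fixed time versus the log-Sobolev inequality. -/

set_option autoImplicit false
set_option linter.dupNamespace false
set_option linter.unusedSectionVars false
open Set MeasureTheory Filter Topology Real
open scoped ContDiff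

noncomputable section

namespace Crest.Agent.N207

namespace HC

variable {M : Type*} [TopologicalSpace M] [CompactSpace M] [MeasurableSpace M]
  [OpensMeasurableSpace M] {H : HC M}

/-- the static structure at time `t` -/
theorem Alg.sobSt (A : H.Alg) {t : ℝ} (ht : t ∈ Ioo 0 H.T) :
    Sob.St H.S0 (fun w => H.gam t w w) where
  cont := fun _ hw => A.s0_cont hw
  contG := fun _ hw => A.s0_cont (A.s0_gam ht hw hw)
  nn := fun _ hw => A.gam_nonneg t ht hw
  comp := fun _ _ hw hφ => A.s0_compU hφ hw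
  gcomp := fun _ _ hw hφ => A.gam_compU2 ht hφ hw

/-- `W` of `w²` -/
theorem Alg.W_sq (A : H.Alg) (I : H.Intg) {t : ℝ} (ht : t ∈ Ioo 0 H.T) (τ : ℝ) {w : M → ℝ}
    (hw : H.S0 w) (hp : ∀ x, 0 < w x) (h1 : ∫ x, w x ^ 2 ∂H.vol t = 1) :
    H.W t τ (fun x => w x ^ 2) = 4 * τ * ∫ x, H.gam t w w x ∂H.vol t +
      τ * ∫ x, H.R t x * w x ^ 2 ∂H.vol t - ∫ x, w x ^ 2 * log (w x ^ 2) ∂H.vol t -
        2 * log (4 * π * τ) - 4 := by
  have s2 := A.s0_pow 2 hw
  have p2 : ∀ x, 0 < w x ^ 2 := fun x => pow_pos (hp x) 2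
  have g2 : ∀ x, H.gam t (fun x => w x ^ 2) (fun x => w x ^ 2) x = 4 * w x ^ 2 * H.gam t w w x := by
    intro x
    rw [A.gam_compU2 ht (φ := fun y => y ^ 2) (by fun_prop) hw x]
    have : deriv (fun y : ℝ => y ^ 2) (w x) = 2 * w x := by simp
    rw [this]; ring
  have i1 := A.integrable I ht (A.s0_gam ht hw hw)
  have i2 := A.integrable I ht (A.s0_mul (A.s0_R ht) s2)
  have i3 := A.integrable I ht (A.s0_mul s2 (A.s0_log s2 p2))
  have i4 := A.integrable I ht s2
  have e : ∀ x, (τ * (H.gam t (fun x => w x ^ 2) (fun x => w x ^ 2) x / (w x ^ 2) ^ 2 + H.R t x)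
      + pot τ (fun x => w x ^ 2) x - 4) * w x ^ 2 =
      4 * τ * H.gam t w w x + τ * (H.R t x * w x ^ 2) - w x ^ 2 * log (w x ^ 2) -
        (2 * log (4 * π * τ) + 4) * w x ^ 2 := by
    intro x
    rw [g2, pot]
    have := (hp x).ne'
    field_simp
    ring
  unfold W
  simp only [e]
  have j1 : Integrable (fun x => 4 * τ * H.gam t w w x + τ * (H.R t x * w x ^ 2)) (H.vol t) :=
    (i1.const_mul _).add (i2.const_mul _)
  have j2 : Integrable (fun x => 4 * τ * H.gam t w w x + τ * (H.R t x * w x ^ 2) -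
      w x ^ 2 * log (w x ^ 2)) (H.vol t) := j1.sub i3
  rw [integral_sub j2 (i4.const_mul _), integral_sub j1 i3,
    integral_add (i1.const_mul _) (i2.const_mul _), integral_const_mul, integral_const_mul,
    integral_const_mul, h1]
  ring

theorem Alg.int_R_sq (A : H.Alg) (I : H.Intg) {t : ℝ} (ht : t ∈ Ioo 0 H.T) {K : ℝ}
    (hK : ∀ x, |H.R t x| ≤ K) {u : M → ℝ} (hu : H.S0 u) (hp : ∀ x, 0 ≤ u x) :
    |∫ x, H.R t x * u x ∂H.vol t| ≤ K * ∫ x, u x ∂H.vol t := by
  rw [← integral_const_mul]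
  refine (abs_integral_le_integral_abs).trans (integral_mono
    (A.integrable I ht (A.s0_mul (A.s0_R ht) hu)).abs
    (A.integrable I ht (A.s0_cmul K hu)) fun x => ?_)
  simp only [abs_mul, abs_of_nonneg (hp x)]
  exact mul_le_mul_of_nonneg_right (hK x) (hp x)

/-- log-Sobolev ⇒ lower bound for `W` -/
theorem Alg.W_ge_of_ls (A : H.Alg) (I : H.Intg) {t : ℝ} (ht : t ∈ Ioo 0 H.T) {K τ0 a : ℝ}
    (hK : ∀ x, |H.R t x| ≤ K) (hL : Sob.LS (H.vol t) H.S0 (fun w => H.gam t w w) τ0 a)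
    {τ : ℝ} (h0 : 0 < τ) (h1 : τ ≤ τ0) {u : M → ℝ} (hu : H.S0 u) (hp : ∀ x, 0 < u x)
    (hm : ∫ x, u x ∂H.vol t = 1) : -(a + 2 * log (4 * π) + 4 + τ * K) ≤ H.W t τ u := by
  have hw := A.s0_sqrt hu hp
  have e : ∀ x, √(u x) ^ 2 = u x := fun x => sq_sqrt (hp x).le
  have hm' : ∫ x, √(u x) ^ 2 ∂H.vol t = 1 := by simpa only [e] using hm
  have k1 := A.W_sq I ht τ hw (fun x => sqrt_pos.2 (hp x)) hm'
  have k2 := hL τ h0 h1 _ hw (fun x => sqrt_pos.2 (hp x)) hm'
  have k3 := A.int_R_sq I ht hK hu fun x => (hp x).le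
  simp only [e] at k1 k2
  rw [hm, mul_one] at k3
  rw [log_mul (by positivity) h0.ne'] at k1
  have k4 := mul_le_mul_of_nonneg_left (abs_le.1 k3).1 h0.le
  have : H.W t τ u = H.W t τ fun x => u x := rfl
  linarith

/-- lower bound for `W` ⇒ log-Sobolev -/
theorem Alg.ls_of_W (A : H.Alg) (I : H.Intg) {t : ℝ} (ht : t ∈ Ioo 0 H.T) {K τ0 C : ℝ}
    (hK : ∀ x, |H.R t x| ≤ K)
    (hW : ∀ τ, 0 < τ → τ ≤ τ0 → ∀ u, H.S0 u → (∀ x, 0 < u x) → ∫ x, u x ∂H.vol t = 1 →
      -C ≤ H.W t τ u) :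
    Sob.LS (H.vol t) H.S0 (fun w => H.gam t w w) τ0 (C + τ0 * |K|) := by
  intro τ h0 h1 w hw hp hm
  have s2 := A.s0_pow 2 hw
  have k1 := A.W_sq I ht τ hw hp hm
  have k2 := hW τ h0 h1 _ s2 (fun x => pow_pos (hp x) 2) hm
  have k3 := A.int_R_sq I ht hK s2 fun x => sq_nonneg _
  rw [hm, mul_one] at k3
  rw [log_mul (by positivity) h0.ne'] at k1
  have k4 := mul_le_mul_of_nonneg_left ((abs_le.1 k3).2.trans (le_abs_self K)) h0.le
  have k5 := mul_le_mul_of_nonneg_right h1 (abs_nonneg K)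
  have k6 : 0 ≤ log (4 * π) := log_nonneg (by linarith [pi_gt_three])
  linarith

/-- fixed-time log-Sobolev inequality -/
theorem ls0 (A : H.Alg) (I : H.Intg) (S : H.Sob0) {t : ℝ} (ht : t ∈ Ioo 0 H.T) (τ0 : ℝ) :
    ∃ a, Sob.LS (H.vol t) H.S0 (fun w => H.gam t w w) (|τ0|) a := by
  obtain ⟨a, b, ha, hb, h⟩ := S t ht
  have := I.fin t ht
  exact ⟨_, Sob.SobI.ls (A.sobSt ht) ha hb.le h _⟩

/-- fixed-time lower bound for `W` (all scales `0 < τ ≤ t2`) -/
theorem W_lower' (A : H.Alg) (I : H.Intg) (E : H.Evo) (S : H.Sob0) {t : ℝ} (ht : t ∈ Ioo 0 H.T)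
    (t2 : ℝ) : ∃ C, ∀ τ, 0 < τ → τ ≤ t2 → ∀ u, H.S0 u → (∀ x, 0 < u x) →
      ∫ x, u x ∂H.vol t = 1 → -C ≤ H.W t τ u := by
  obtain ⟨a, ha⟩ := ls0 A I S ht t2
  obtain ⟨K, hK⟩ := E.R_bd
  refine ⟨a + 2 * log (4 * π) + 4 + |t2| * |K|, fun τ h0 h1 u hu hp hm => ?_⟩
  have h2 := h1.trans (le_abs_self t2)
  have := A.W_ge_of_ls I ht (K := |K|) (fun x => (hK t ht x).trans (le_abs_self K)) ha h0 h2 hu hp hm
  have k5 := mul_le_mul_of_nonneg_right h2 (abs_nonneg K)
  linarith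


/-- uniform log-Sobolev inequality on `[t0, T)` -/
def ULS (H : HC M) (t0 : ℝ) : Prop :=
  ∃ τ0 A : ℝ, 0 < τ0 ∧ ∀ t ∈ Ico t0 H.T, Sob.LS (H.vol t) H.S0 (fun w => H.gam t w w) τ0 A

end HC

end Crest.Agent.N207

end
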