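import Crest.Agent.N207.C.Max
import Crest.Agent.N207.C.W0
import Crest.Agent.N207.C.Lip
import Crest.Agent.N207.C.Stmt

-- ▼ part N207/C/Ent
section

/-!
# Row 207, block C: Perelman's entropy formula for conjugate heat solutions
-/

set_option autoImplicit false
set_option linter.dupNamespace false
set_option linter.unusedSectionVars false
open Set MeasureTheory Filter Topology
open scoped ContDiff

noncomputable section

namespace Crest.Agent.N207

namespace HC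

variable {M : Type*} [TopologicalSpace M] [CompactSpace M] [MeasurableSpace M] {H : HC M}

/-- `P = 2Δf - |∇f|² + R` -/
def Pp (H : HC M) (t : ℝ) (f : M → ℝ) (x : M) : ℝ := 2 * H.lap t f x - H.gam t f f x + H.R t x

namespace Alg

variable (A : H.Alg)
include A

section static
variable {t τ : ℝ} {u : M → ℝ}

theorem s0_pot (hu : H.S0 u) (hp : ∀ x, 0 < u x) (τ : ℝ) : H.S0 (pot τ u) :=
  A.s0_sub (A.s0_neg (A.s0_log hu hp)) (A.s0_const _)

theorem s0_Pp (ht : t ∈ Ioo 0 H.T) {f : M → ℝ} (hf : H.S0 f) : H.S0 (H.Pp t f) :=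
  A.s0_add (A.s0_sub (A.s0_cmul 2 (A.s0_lap ht hf)) (A.s0_gam ht hf hf)) (A.s0_R ht)

theorem gam_pot (ht : t ∈ Ioo 0 H.T) (hu : H.S0 u) (hp : ∀ x, 0 < u x) {w : M → ℝ} (hw : H.S0 w)
    (x : M) : H.gam t (pot τ u) w x = -H.gam t u w x / u x := by
  have hl := A.s0_log hu hp
  unfold pot
  rw [A.gam_sub ht (A.s0_neg hl) (A.s0_const _) hw, A.gam_const ht _ hw, A.gam_neg ht hl hw,
    A.gam_comp t ht isOpen_Ioi (Real.contDiffOn_log.mono fun _ h => ne_of_gt h) hp hu hw,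
    Real.deriv_log]
  field_simp; ring

theorem gam_pot2 (ht : t ∈ Ioo 0 H.T) (hu : H.S0 u) (hp : ∀ x, 0 < u x) (x : M) :
    H.gam t (pot τ u) (pot τ u) x = H.gam t u u x / u x ^ 2 := by
  have hf := A.s0_pot hu hp τ
  rw [A.gam_pot ht hu hp hf, A.gam_symm t ht hu hf, A.gam_pot ht hu hp hu]
  have := (hp x).ne'
  field_simp

theorem lap_pot (ht : t ∈ Ioo 0 H.T) (hu : H.S0 u) (hp : ∀ x, 0 < u x) (x : M) :
    H.lap t (pot τ u) x = -H.lap t u x / u x + H.gam t u u x / u x ^ 2 := by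
  have hl := A.s0_log hu hp
  unfold pot
  rw [A.lap_sub ht (A.s0_neg hl) (A.s0_const _), A.lap_const ht, A.lap_neg ht hl,
    A.lap_comp t ht isOpen_Ioi (Real.contDiffOn_log.mono fun _ h => ne_of_gt h) hp hu,
    Real.deriv_log', deriv_inv]
  have := (hp x).ne'
  field_simp; ring

theorem lap_eq_pot (ht : t ∈ Ioo 0 H.T) (hu : H.S0 u) (hp : ∀ x, 0 < u x) (τ : ℝ) (x : M) :
    H.lap t u x = (H.gam t (pot τ u) (pot τ u) x - H.lap t (pot τ u) x) * u x := by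
  rw [A.gam_pot2 ht hu hp, A.lap_pot ht hu hp]
  have := (hp x).ne'
  field_simp; ring

variable [OpensMeasurableSpace M]

/-- `∫ (Δ f - |∇f|²) u = 0` -/
theorem int_pot (I : H.Intg) (ht : t ∈ Ioo 0 H.T) (hu : H.S0 u) (hp : ∀ x, 0 < u x) (τ : ℝ) :
    ∫ x, (H.lap t (pot τ u) x - H.gam t (pot τ u) (pot τ u) x) * u x ∂H.vol t = 0 := by
  have h := I.int_lap t ht hu
  simp_rw [A.lap_eq_pot ht hu hp τ] at h
  rw [← neg_eq_zero, ← integral_neg, ← h]
  congr 1; funext x; ring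

/-- `∫ (⟨∇f, ∇g⟩ - Δ g) u = 0` -/
theorem int_pot2 (I : H.Intg) (ht : t ∈ Ioo 0 H.T) (hu : H.S0 u) (hp : ∀ x, 0 < u x) (τ : ℝ)
    {g : M → ℝ} (hg : H.S0 g) :
    ∫ x, (H.gam t (pot τ u) g x - H.lap t g x) * u x ∂H.vol t = 0 := by
  have h := I.ibp t ht hu hg
  have e : ∀ x, (H.gam t (pot τ u) g x - H.lap t g x) * u x =
      -H.gam t u g x - u x * H.lap t g x := fun x => by
    rw [A.gam_pot ht hu hp hg]; have := (hp x).ne'; field_simp
  simp_rw [e]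
  rw [integral_sub (A.integrable I ht (A.s0_neg (A.s0_gam ht hu hg)))
    (A.integrable I ht (A.s0_mul hu (A.s0_lap ht hg))), h, integral_neg, sub_self]

theorem W_eq (I : H.Intg) (ht : t ∈ Ioo 0 H.T) (hu : H.S0 u) (hp : ∀ x, 0 < u x) (τ : ℝ) :
    H.W t τ u = ∫ x, (τ * H.Pp t (pot τ u) x + pot τ u x - 4) * u x ∂H.vol t := by
  have hf := A.s0_pot hu hp τ
  have h := A.int_pot I ht hu hp τ
  have i1 := A.integrable I ht (A.s0_mul (A.s0_sub (A.s0_add (A.s0_cmul τ (A.s0_add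
    (A.s0_gam ht hf hf) (A.s0_R ht))) hf) (A.s0_const 4)) hu)
  have i2 := (A.integrable I ht (A.s0_mul (A.s0_sub (A.s0_lap ht hf) (A.s0_gam ht hf hf))
    hu)).const_mul (2 * τ)
  unfold W
  simp_rw [← A.gam_pot2 (τ := τ) ht hu hp]
  rw [← add_zero (integral _ _), ← mul_zero (2 * τ), ← h, ← integral_const_mul,
    ← integral_add i1 i2]
  congr 1; funext x; unfold Pp; ring

/-- `W = τ ∫ P u + Na - 2` for probability densities -/
theorem W_eq_Na (I : H.Intg) (ht : t ∈ Ioo 0 H.T) (hu : H.S0 u) (hp : ∀ x, 0 < u x) (τ : ℝ)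
    (hm : ∫ x, u x ∂H.vol t = 1) :
    H.W t τ u = τ * ∫ x, H.Pp t (pot τ u) x * u x ∂H.vol t + H.Na t τ u - 2 := by
  have hf := A.s0_pot hu hp τ
  have i1 := (A.integrable I ht (A.s0_mul (A.s0_Pp ht hf) hu)).const_mul τ
  have i2 := A.integrable I ht (A.s0_mul hf hu)
  have i3 := (A.integrable I ht hu).const_mul 4
  rw [A.W_eq I ht hu hp, Na]
  calc _ = ∫ x, (τ * (H.Pp t (pot τ u) x * u x) + pot τ u x * u x - 4 * u x) ∂H.vol t := by
        congr 1; funext x; ring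
    _ = _ := by
        rw [integral_sub (i1.fun_add i2) i3, integral_add i1 i2, integral_const_mul,
          integral_const_mul, hm]; ring

end static

variable {a b τ0 : ℝ} {u : ℝ → M → ℝ}

omit A in
theorem tau_pos (h0 : 0 < τ0) {t : ℝ} (ht : t ∈ Icc a b) : 0 < τ0 + b - t := by linarith [ht.2]

theorem sm_pot (hu : H.Sm a b u) (hp : ∀ t ∈ Icc a b, ∀ x, 0 < u t x) (h0 : 0 < τ0) :
    H.Sm a b fun t => pot (τ0 + b - t) (u t) :=
  A.sm_sub (A.sm_neg (A.sm_log hu hp)) (A.sm_cmul 2 (A.sm_log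
    (A.sm_timeU (c := fun t => 4 * Real.pi * (τ0 + b - t)) (by fun_prop)) fun t ht _ => by
      have := tau_pos h0 ht; have := Real.pi_pos; positivity))

/-- the equation of the potential -/
theorem dt_pot (hs : H.St a b) (hu : H.Conj a b u) (hp : ∀ t ∈ Icc a b, ∀ x, 0 < u t x)
    (h0 : 0 < τ0) : HasDt a b (fun t => pot (τ0 + b - t) (u t)) fun t x =>
      H.lap t (pot (τ0 + b - t) (u t)) x - H.Pp t (pot (τ0 + b - t) (u t)) x
        + 2 / (τ0 + b - t) := by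
  intro t ht x
  have hτ := tau_pos h0 ht
  have h1 := (hu.2 t ht x).log (hp t ht x).ne'
  have h2 : HasDerivAt (fun s => Real.log (4 * Real.pi * (τ0 + b - s)))
      (4 * Real.pi * (-1) / (4 * Real.pi * (τ0 + b - t))) t :=
    (((hasDerivAt_id t).const_sub (τ0 + b)).const_mul (4 * Real.pi)).log
      (by have := Real.pi_pos; simp only [id]; positivity)
  refine HasDerivWithinAt.congr_deriv (h1.neg.sub (h2.const_mul 2).hasDerivWithinAt) ?_
  have := (hp t ht x).ne'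
  have := Real.pi_pos
  beta_reduce
  rw [A.lap_eq_pot (hs.mem ht) (A.sm_s0 hu.1 t ht) (hp t ht) (τ0 + b - t)]
  unfold Pp
  field_simp; ring

theorem sm_Pp (hs : H.St a b) {f : ℝ → M → ℝ} (hf : H.Sm a b f) :
    H.Sm a b fun t => H.Pp t (f t) :=
  A.sm_add (A.sm_sub (A.sm_cmul 2 (A.sm_lap hs hf)) (A.sm_gam hs hf hf)) (A.sm_R hs)

/-- Perelman's pointwise identity -/
theorem dt_Pp (E : H.Evo) (hs : H.St a b) {f : ℝ → M → ℝ} {c : ℝ → ℝ} (hf : H.Sm a b f)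
    (hd : HasDt a b f fun t x => H.lap t (f t) x - H.Pp t (f t) x + c t) :
    HasDt a b (fun t => H.Pp t (f t)) fun t x => -H.lap t (H.Pp t (f t)) x
      + 2 * (H.hh t (f t) x + 2 * H.rh t (f t) x + H.Q 0 t x)
      + 2 * H.gam t (f t) (H.Pp t (f t)) x := by
  refine ((((E.dt_lap hs hf hd).cmul 2).sub (E.dt_gam hs hf hd)).add (E.dt_R hs)).congr_d
    fun t ht x => ?_
  have hm := hs.mem ht
  have s0 := A.sm_s0 hf t ht
  have s1 := A.s0_lap hm s0
  have s2 := A.s0_gam hm s0 s0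
  have s3 := A.s0_R hm
  have s4 := A.s0_Pp hm s0
  have e1 : H.lap t (H.Pp t (f t)) x = 2 * H.lap t (H.lap t (f t)) x
      - H.lap t (H.gam t (f t) (f t)) x + H.lap t (H.R t) x := by
    unfold Pp
    rw [A.lap_add t hm (A.s0_sub (A.s0_cmul 2 s1) s2) s3, A.lap_sub hm (A.s0_cmul 2 s1) s2,
      A.lap_cmul hm 2 s1]
  have e2 : (fun y => H.lap t (f t) y - H.Pp t (f t) y + c t - H.lap t (f t) y) =
      fun y => c t - H.Pp t (f t) y := by funext y; ring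
  rw [A.lap_add t hm (A.s0_sub s1 s4) (A.s0_const _), A.lap_sub hm s1 s4, A.lap_const hm, e2,
    A.gam_sub' hm (A.s0_const _) s4 s0, A.gam_const' hm _ s0, e1]
  ring

variable [OpensMeasurableSpace M]

/-- **Perelman's formula** `dW/dt = 2τ ∫ |Ric + Hess f - g/2τ|² u` -/
theorem W_dt (I : H.Intg) (E : H.Evo) (hs : H.St a b) (hu : H.Conj a b u)
    (hp : ∀ t ∈ Icc a b, ∀ x, 0 < u t x) (h0 : 0 < τ0) : ∀ t ∈ Icc a b,
    HasDerivWithinAt (fun s => H.W s (τ0 + b - s) (u s))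
      (2 * (τ0 + b - t) * ∫ x, H.sol t (τ0 + b - t) (pot (τ0 + b - t) (u t)) x * u t x ∂H.vol t)
      (Icc a b) t := by
  intro t ht
  have hf := A.sm_pot hu.1 hp h0
  have hd := A.dt_pot hs hu hp h0
  have hP := A.sm_Pp hs hf
  have dP := A.dt_Pp E hs hf hd
  have t1 : H.Sm a b fun t (_ : M) => τ0 + b - t := A.sm_timeU (by fun_prop)
  have d1 : HasDt a b (fun t (_ : M) => τ0 + b - t) fun _ _ => -1 :=
    HasDt.time (c' := fun _ => -1) fun t _ => (hasDerivAt_id t).const_sub _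
  have h1 := A.pair_dt I hs (A.sm_sub (A.sm_add (A.sm_mul t1 hP) hf) (A.sm_const 4))
    (((d1.mul dP).add hd).sub (HasDt.static fun _ => 4)) hu t ht
  refine (h1.congr (fun s hs' => A.W_eq I (hs.mem hs') (A.sm_s0 hu.1 s hs') (hp s hs') _)
    (A.W_eq I (hs.mem ht) (A.sm_s0 hu.1 t ht) (hp t ht) _)).congr_deriv ?_
  have hm := hs.mem ht
  have hτ := tau_pos h0 ht
  set τ := τ0 + b - t
  have su := A.sm_s0 hu.1 t ht
  have s0 : H.S0 (pot τ (u t)) := A.sm_s0 hf t ht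
  have s4 := A.s0_Pp hm s0
  have e1 := A.int_pot I hm su (hp t ht) τ
  have e2 := A.int_pot2 I hm su (hp t ht) τ s4
  have ss : H.S0 (H.sol t τ (pot τ (u t))) := by
    have := A.s0_add (A.s0_sub (A.s0_add (A.s0_add (A.s0_hh hm s0) (A.s0_cmul 2 (A.s0_rh hm s0)))
      (A.s0_Q hm 0)) (A.s0_mul (A.s0_add (A.s0_R hm) (A.s0_lap hm s0)) (A.s0_const τ⁻¹)))
      (A.s0_const (1 / τ ^ 2))
    exact this
  have i1 := (A.integrable I hm (A.s0_mul ss su)).const_mul (2 * τ)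
  have i2 := (A.integrable I hm (A.s0_mul (A.s0_sub (A.s0_lap hm s0) (A.s0_gam hm s0 s0))
    su)).const_mul (-2)
  have i3 := (A.integrable I hm (A.s0_mul (A.s0_sub (A.s0_gam hm s0 s4) (A.s0_lap hm s4))
    su)).const_mul (2 * τ)
  calc _ = ∫ x, (2 * τ * (H.sol t τ (pot τ (u t)) x * u t x)
        + -2 * ((H.lap t (pot τ (u t)) x - H.gam t (pot τ (u t)) (pot τ (u t)) x) * u t x)
        + 2 * τ * ((H.gam t (pot τ (u t)) (H.Pp t (pot τ (u t))) x
          - H.lap t (H.Pp t (pot τ (u t))) x) * u t x)) ∂H.vol t := by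
        congr 1; funext x
        rw [A.lap_sub hm (A.s0_add (A.s0_cmul _ s4) s0) (A.s0_const _), A.lap_const hm,
          A.lap_add t hm (A.s0_cmul _ s4) s0, A.lap_cmul hm _ s4]
        simp only [sol, Pp]
        field_simp; ring
    _ = _ := by
        rw [integral_add (i1.fun_add i2) i3, integral_add i1 i2, integral_const_mul,
          integral_const_mul, integral_const_mul, e1, e2]; ring

/-- `W` is nondecreasing in time -/
theorem W_mono (I : H.Intg) (E : H.Evo) (hs : H.St a b) (hu : H.Conj a b u)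
    (hp : ∀ t ∈ Icc a b, ∀ x, 0 < u t x) (h0 : 0 < τ0) :
    MonotoneOn (fun s => H.W s (τ0 + b - s) (u s)) (Icc a b) :=
  mono_of_deriv (A.W_dt I E hs hu hp h0) fun t ht => by
    have ht' := Ioo_subset_Icc_self ht
    have hτ := tau_pos h0 ht'
    exact mul_nonneg (by positivity) (integral_nonneg fun x => mul_nonneg
      (E.sol_nonneg t (hs.mem ht') _ hτ (A.s0_pot (A.sm_s0 hu.1 t ht') (hp t ht') _) x)
      (hp t ht' x).le)

/-- `dNa/dt = (Na - W)/τ` -/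
theorem Na_dt (I : H.Intg) (hs : H.St a b) (hu : H.Conj a b u)
    (hp : ∀ t ∈ Icc a b, ∀ x, 0 < u t x) (h0 : 0 < τ0) (hm : ∫ x, u b x ∂H.vol b = 1) :
    ∀ t ∈ Icc a b, HasDerivWithinAt (fun s => H.Na s (τ0 + b - s) (u s))
      ((H.Na t (τ0 + b - t) (u t) - H.W t (τ0 + b - t) (u t)) / (τ0 + b - t)) (Icc a b) t := by
  intro t ht
  have hf := A.sm_pot hu.1 hp h0
  have hd := A.dt_pot hs hu hp h0
  have h1 := (A.pair_dt I hs hf hd hu t ht).sub_const 2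
  refine HasDerivWithinAt.congr_deriv h1 ?_
  have hm' := hs.mem ht
  have hτ := tau_pos h0 ht
  set τ := τ0 + b - t
  have su := A.sm_s0 hu.1 t ht
  have hm1 : ∫ x, u t x ∂H.vol t = 1 := (A.conj_mass I hs hu ht ⟨hs.2.1.le, le_rfl⟩).trans hm
  rw [A.W_eq_Na I hm' su (hp t ht) τ hm1]
  have i1 := A.integrable I hm' (A.s0_mul (A.s0_Pp hm' (A.s0_pot su (hp t ht) τ)) su)
  have i2 := (A.integrable I hm' su).const_mul (2 / τ)
  calc _ = ∫ x, (2 / τ * u t x - H.Pp t (pot τ (u t)) x * u t x) ∂H.vol t := by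
        congr 1; funext x; ring
    _ = _ := by rw [integral_sub i2 i1, integral_const_mul, hm1]; field_simp; ring

/-- `d(τ Na)/dt = -W` -/
theorem tauNa_dt (I : H.Intg) (hs : H.St a b) (hu : H.Conj a b u)
    (hp : ∀ t ∈ Icc a b, ∀ x, 0 < u t x) (h0 : 0 < τ0) (hm : ∫ x, u b x ∂H.vol b = 1) :
    ∀ t ∈ Icc a b, HasDerivWithinAt (fun s => (τ0 + b - s) * H.Na s (τ0 + b - s) (u s))
      (-H.W t (τ0 + b - t) (u t)) (Icc a b) t := by
  intro t ht
  have hτ := tau_pos h0 ht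
  have h1 := (((hasDerivAt_id t).const_sub (τ0 + b)).hasDerivWithinAt (s := Icc a b)).mul
    (A.Na_dt I hs hu hp h0 hm t ht)
  refine HasDerivWithinAt.congr_deriv h1 ?_
  simp only [id]
  field_simp; ring

/-- two-sided control of the Nash entropy by `W` -/
theorem Na_bounds (I : H.Intg) (E : H.Evo) (hs : H.St a b) (hu : H.Conj a b u)
    (hp : ∀ t ∈ Icc a b, ∀ x, 0 < u t x) (h0 : 0 < τ0) (hm : ∫ x, u b x ∂H.vol b = 1)
    {s t : ℝ} (hs' : s ∈ Icc a b) (ht : t ∈ Icc a b) (hst : s ≤ t) :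
    (t - s) * H.W s (τ0 + b - s) (u s) ≤
        (τ0 + b - s) * H.Na s (τ0 + b - s) (u s) - (τ0 + b - t) * H.Na t (τ0 + b - t) (u t) ∧
      (τ0 + b - s) * H.Na s (τ0 + b - s) (u s) - (τ0 + b - t) * H.Na t (τ0 + b - t) (u t) ≤
        (t - s) * H.W t (τ0 + b - t) (u t) := by
  rcases hst.eq_or_lt with rfl | hlt
  · simp
  have hsub : Icc s t ⊆ Icc a b := Icc_subset_Icc hs'.1 ht.2
  have hd := fun r (hr : r ∈ Icc s t) => (A.tauNa_dt I hs hu hp h0 hm r (hsub hr)).mono hsub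
  have hW := A.W_mono I E hs hu hp h0
  have hl : ∀ c : ℝ, ∀ r ∈ Icc s t, HasDerivWithinAt (fun r => -c * r) (-c) (Icc s t) r :=
    fun c r _ => by simpa using ((hasDerivAt_id r).const_mul (-c)).hasDerivWithinAt
  have h1 := sub_le_of_deriv hd (hl _) (fun r hr => neg_le_neg
    (hW hs' (hsub (Ioo_subset_Icc_self hr)) hr.1.le)) ⟨le_rfl, hst⟩ ⟨hst, le_rfl⟩ hst
  have h2 := sub_le_of_deriv (hl _) hd (fun r hr => neg_le_neg
    (hW (hsub (Ioo_subset_Icc_self hr)) ht hr.2.le)) ⟨le_rfl, hst⟩ ⟨hst, le_rfl⟩ hst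
  constructor <;> linarith

/-- the Nash entropy of a solution from a bump stays below `ε` -/
theorem Na_le (I : H.Intg) (E : H.Evo) (hs : H.St a b) (hu : H.Conj a b u)
    (hp : ∀ t ∈ Icc a b, ∀ x, 0 < u t x) (h0 : 0 < τ0) (hm : ∫ x, u b x ∂H.vol b = 1) {ε : ℝ}
    (h1 : H.W b τ0 (u b) ≤ ε) (h2 : H.Na b τ0 (u b) ≤ ε) :
    ∀ s ∈ Icc a b, H.Na s (τ0 + b - s) (u s) ≤ ε := by
  intro s hs'
  have h := (A.Na_bounds I E hs hu hp h0 hm hs' ⟨hs.2.1.le, le_rfl⟩ hs'.2).2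
  have hτ := tau_pos h0 hs'
  rw [add_sub_cancel_right] at h
  have h3 : (τ0 + b - s) * H.Na s (τ0 + b - s) (u s) ≤ (τ0 + b - s) * ε := by
    nlinarith [mul_le_mul_of_nonneg_left h1 (sub_nonneg.2 hs'.2),
      mul_le_mul_of_nonneg_left h2 h0.le]
  exact le_of_mul_le_mul_left h3 hτ

end Alg

end HC

end Crest.Agent.N207

end
end

-- ▼ part N207/C/ULS

/-!
# Row 207, block C: uniform lower bound for `W`, uniform log-Sobolev, `LipH`, `DistLo`
-/

set_option autoImplicit false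
set_option linter.dupNamespace false
set_option linter.unusedSectionVars false
open Set MeasureTheory Filter Topology
open scoped ContDiff

noncomputable section

namespace Crest.Agent.N207

namespace HC

variable {M : Type*} [TopologicalSpace M] [CompactSpace M] [MeasurableSpace M]
  [OpensMeasurableSpace M] {H : HC M}

/-- Perelman: `W` is bounded below on `[t0, T)`, at all scales `0 < τ ≤ τ1` -/
theorem W_unif (h : H.Ok) {t0 : ℝ} (h0 : 0 < t0) (τ1 : ℝ) : ∃ C, 0 < C ∧ ∀ t ∈ Ico t0 H.T,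
    ∀ τ, 0 < τ → τ ≤ τ1 → ∀ u, H.S0 u → (∀ x, 0 < u x) → ∫ x, u x ∂H.vol t = 1 →
      -C ≤ H.W t τ u := by
  have A := h.alg
  by_cases hT : t0 < H.T
  swap
  · exact ⟨1, one_pos, fun t ht => absurd (ht.1.trans_lt ht.2) hT⟩
  obtain ⟨C, hC⟩ := W_lower' A h.int h.evo h.sob0 (t := t0 / 2) ⟨by linarith, by linarith⟩
    (τ1 + H.T)
  refine ⟨|C| + 1, by positivity, fun t ht τ hτ h1 u hu hp hm => ?_⟩
  have hs : H.St (t0 / 2) t := ⟨by linarith, by linarith [ht.1], ht.2⟩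
  have ha : t0 / 2 ∈ Icc (t0 / 2) t := ⟨le_rfl, hs.2.1.le⟩
  have hb : t ∈ Icc (t0 / 2) t := ⟨hs.2.1.le, le_rfl⟩
  obtain ⟨v, hv, e⟩ := h.solv.conj hs hu
  have vp := A.conj_pos h.evo hs hv (by rw [e]; exact hp)
  have k1 := A.W_mono h.int h.evo hs hv vp hτ ha hb hs.2.1.le
  have k2 := hC (τ + t - t0 / 2) (by linarith [ht.1]) (by linarith [ht.2]) (v (t0 / 2))
    (A.sm_s0 hv.1 _ ha) (vp _ ha) (by rw [A.conj_mass h.int hs hv ha hb, e, hm])
  simp only [add_sub_cancel_right, e] at k1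
  linarith [le_abs_self C]

/-- the uniform log-Sobolev inequality, at all scales up to `τ0` -/
theorem uls' (h : H.Ok) {t0 : ℝ} (h0 : 0 < t0) (τ0 : ℝ) : ∃ a, ∀ t ∈ Ico t0 H.T,
    Sob.LS (H.vol t) H.S0 (fun w => H.gam t w w) τ0 a := by
  obtain ⟨C, -, hC⟩ := W_unif h h0 τ0
  obtain ⟨K, hK⟩ := h.evo.R_bd
  exact ⟨_, fun t ht => h.alg.ls_of_W h.int ⟨h0.trans_le ht.1, ht.2⟩
    (hK t ⟨h0.trans_le ht.1, ht.2⟩) (hC t ht)⟩

theorem uls (h : H.Ok) {t0 : ℝ} (h0 : 0 < t0) : H.ULS t0 := by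
  obtain ⟨a, ha⟩ := uls' h h0 1
  exact ⟨1, a, one_pos, ha⟩

/-- along a conjugate solution in `[t0, T)`: the total soliton defect is bounded by
`W` at the top plus a constant -/
theorem sol_int_le (h : H.Ok) {t0 : ℝ} (h0 : 0 < t0) (τ1 : ℝ) : ∃ C, 0 < C ∧
    ∀ {a b τ0 : ℝ} {u : ℝ → M → ℝ}, t0 ≤ a → H.St a b → H.Conj a b u → (∀ x, 0 < u b x) →
      ∫ x, u b x ∂H.vol b = 1 → 0 < τ0 → τ0 ≤ τ1 → ∀ t ∈ Icc a b,
        -C ≤ H.W t (τ0 + b - t) (u t) ∧ H.W t (τ0 + b - t) (u t) ≤ H.W b τ0 (u b) := by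
  obtain ⟨C, hC0, hC⟩ := W_unif h h0 (τ1 + H.T)
  refine ⟨C, hC0, fun {a b τ0 u} ha hs hu hp hm h1 h2 t ht => ?_⟩
  have A := h.alg
  have hb : b ∈ Icc a b := ⟨hs.2.1.le, le_rfl⟩
  have up := A.conj_pos h.evo hs hu hp
  have k1 := A.W_mono h.int h.evo hs hu up h1 ht hb ht.2
  simp only [add_sub_cancel_right] at k1
  exact ⟨hC t ⟨ha.trans ht.1, ht.2.trans_lt hs.2.2⟩ _ (by linarith [ht.2])
    (by linarith [hs.2.2, hs.1, ht.1]) _ (A.sm_s0 hu.1 t ht) (up t ht)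
    (by rw [A.conj_mass h.int hs hu ht hb, hm]), k1⟩

omit [OpensMeasurableSpace M] in
theorem lipH (h : H.Ok) : H.LipH := by
  obtain ⟨C1, hC1, h1⟩ := h.alg.heat_lap h.evo
  obtain ⟨C2, hC2, h2⟩ := h.alg.heat_move h.evo
  refine ⟨C1 + C2, by positivity, fun {a b u} hs hu h0 t ht x => ⟨?_, ?_⟩⟩
  · rcases ht.1.eq_or_lt with rfl | hlt
    · simp only [sub_self, Real.sqrt_zero, zero_mul]; positivity
    have k := h1 hs hu h0 t ⟨hlt, ht.2⟩ x
    rw [le_div_iff₀ (Real.sqrt_pos.2 (sub_pos.2 hlt))] at k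
    linarith
  · exact (h2 hs hu h0 a ⟨le_rfl, hs.2.1.le⟩ t ht ht.1 x).trans (by gcongr; linarith)

omit [OpensMeasurableSpace M] in
theorem distLo (h : H.Ok) : H.DistLo := by
  obtain ⟨C, hC, h1⟩ := h.alg.dist_lower h.evo h.solv h.dist
  exact ⟨C, hC, fun s t hs hst ht =>
    h1 s ⟨hs, hst.trans_lt ht⟩ t ⟨hs.trans_le hst, ht⟩ hst⟩

end HC

end Crest.Agent.N207

end
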