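import Crest.Agent.N207.C.W0
import Crest.Agent.N207.C.Stmt
import Crest.Agent.N207.E.DH
import Crest.Agent.N207.C.ULS
import Crest.Agent.N207.C.LogB

-- ▼ part N207/C/Ultra
section

/-! Row 207, block C: Nash ⇒ `L¹ → L²` ⇒ (duality) `L¹ → L^∞` for the heat and conjugate heat
equations. -/

set_option autoImplicit false
set_option linter.dupNamespace false
set_option linter.unusedSectionVars false
open Set MeasureTheory Filter Topology Real
open scoped ContDiff

noncomputable section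

namespace Crest.Agent.N207

namespace Sob

variable {X : Type*} [TopologicalSpace X] [MeasurableSpace X]
  [CompactSpace X] [OpensMeasurableSpace X] {μ : Measure X} [IsFiniteMeasure μ]
  {S : (X → ℝ) → Prop} {G : (X → ℝ) → X → ℝ}

/-- Nash inequality for nonnegative functions -/
theorem LS.nash0 (h : St S G) {τ0 A : ℝ} (hτ : 0 < τ0) (hL : LS μ S G τ0 A)
    {w : X → ℝ} (hw : S w) (hp : ∀ x, 0 ≤ w x) :
    (∫ x, w x ^ 2 ∂μ) * √(∫ x, w x ^ 2 ∂μ) ≤
      exp ((A + 1) / 2) * (∫ x, w x ∂μ) * (4 * ∫ x, G w x ∂μ + (∫ x, w x ^ 2 ∂μ) / τ0) := by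
  have hwc := h.cont w hw
  have i1 : Integrable w μ := intg hwc
  have i2 : Integrable (fun x => w x ^ 2) μ := intg (hwc.pow 2)
  set n : ℝ → ℝ := fun δ => ∫ x, w x ^ 2 ∂μ + 2 * δ * ∫ x, w x ∂μ + δ ^ 2 * μ.real univ with hn
  have hnc : Continuous n := by rw [hn]; fun_prop
  have key : ∀ δ : ℝ, 0 < δ → n δ * √(n δ) ≤
      exp ((A + 1) / 2) * (∫ x, w x ∂μ + δ * μ.real univ) * (4 * ∫ x, G w x ∂μ + n δ / τ0) := by
    intro δ hδ
    obtain ⟨hS, hG⟩ := h.affine hw 1 δ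
    have := hL.nash h hτ hS fun x => by have := hp x; linarith
    have e1 : ∫ x, (1 * w x + δ) ^ 2 ∂μ = n δ := by
      have : ∀ x, (1 * w x + δ) ^ 2 = w x ^ 2 + 2 * δ * w x + δ ^ 2 := fun x => by ring
      have j : Integrable (fun x => w x ^ 2 + 2 * δ * w x) μ := i2.add (i1.const_mul _)
      simp only [this]
      rw [integral_add j (integrable_const _), integral_add i2 (i1.const_mul _),
        integral_const_mul, integral_const, smul_eq_mul, hn]
      ring
    have e2 : ∫ x, (1 * w x + δ) ∂μ = ∫ x, w x ∂μ + δ * μ.real univ := by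
      simp only [one_mul]
      rw [integral_add i1 (integrable_const _), integral_const, smul_eq_mul]; ring
    simp only [hG, one_pow, one_mul (G w _)] at this
    rwa [e1, e2] at this
  have c1 : Continuous fun δ => n δ * √(n δ) := by fun_prop
  have c2 : Continuous fun δ : ℝ => exp ((A + 1) / 2) * (∫ x, w x ∂μ + δ * μ.real univ) *
      (4 * ∫ x, G w x ∂μ + n δ / τ0) := by fun_prop
  have := le_of_tendsto_of_tendsto ((c1.tendsto 0).mono_left (nhdsWithin_le_nhds (s := Ioi 0)))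
    ((c2.tendsto 0).mono_left nhdsWithin_le_nhds) (eventually_mem_nhdsWithin.mono key)
  simpa [hn] using this

end Sob

/-- the Nash ODE, forward in time -/
theorem nash_ode {N N' : ℝ → ℝ} {a b D c : ℝ} (hD : 0 < D) (hc : 0 ≤ c)
    (hd : ∀ t ∈ Icc a b, HasDerivWithinAt N (N' t) (Icc a b) t) (h0 : ∀ t ∈ Icc a b, 0 ≤ N t)
    (h : ∀ t ∈ Icc a b, N t * √(N t) ≤ D * (c * N t - N' t)) :
    ∀ t ∈ Icc a b, (t - a) ^ 2 * N t ≤ 4 * D ^ 2 * exp (c * (t - a)) := by
  have hd' : HasDt a b (fun t (_ : Unit) => (t - a) ^ 2 * N t * exp (-c * (t - a)) - 4 * D ^ 2)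
      fun t _ => (2 * (t - a) * N t + (t - a) ^ 2 * N' t) * exp (-c * (t - a)) +
        (t - a) ^ 2 * N t * (exp (-c * (t - a)) * -c) := by
    intro t ht _
    have h1 : HasDerivAt (fun t => (t - a) ^ 2) (2 * (t - a)) t := by
      simpa using ((hasDerivAt_id t).sub_const a).fun_pow 2
    have h2 : HasDerivAt (fun t => exp (-c * (t - a))) (exp (-c * (t - a)) * -c) t := by
      simpa using (((hasDerivAt_id t).sub_const a).const_mul (-c)).exp
    exact ((h1.hasDerivWithinAt.mul (hd t ht)).mul h2.hasDerivWithinAt).sub_const _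
  have hc' : ContinuousOn (fun p : ℝ × Unit =>
      (p.1 - a) ^ 2 * N p.1 * exp (-c * (p.1 - a)) - 4 * D ^ 2) (Icc a b ×ˢ univ) := by
    have : ContinuousOn (fun t => (t - a) ^ 2 * N t * exp (-c * (t - a)) - 4 * D ^ 2) (Icc a b) :=
      fun t ht => (hd' t ht ()).continuousWithinAt
    exact this.comp continuousOn_fst fun p hp => hp.1
  have := maxp_core (K := 0) hc' hd' (fun _ => by simp; positivity) fun t ht _ h1 _ => by
    have ht' := Ioc_subset_Icc_self ht
    have k := h t ht'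
    have n0 := h0 t ht'
    have hs : 0 < t - a := sub_pos.2 ht.1
    have e1 : exp (-c * (t - a)) ≤ 1 := exp_le_one_iff.2 (by nlinarith)
    have e0 := exp_pos (-c * (t - a))
    have k1 : (2 * D) ^ 2 < ((t - a) * √(N t)) ^ 2 := by
      rw [mul_pow (t - a), sq_sqrt n0]
      have : (t - a) ^ 2 * N t * exp (-c * (t - a)) ≤ (t - a) ^ 2 * N t :=
        mul_le_of_le_one_right (by positivity) e1
      linarith
    have k2 : 2 * D < (t - a) * √(N t) := lt_of_pow_lt_pow_left₀ 2 (by positivity) k1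
    have k3 : D * (2 * N t + (t - a) * (N' t - c * N t)) ≤ 0 := by
      nlinarith [mul_le_mul_of_nonneg_left k hs.le, mul_le_mul_of_nonneg_left k2.le n0]
    have k4 : 2 * N t + (t - a) * (N' t - c * N t) ≤ 0 := by
      by_contra hn; exact absurd (mul_pos hD (not_le.1 hn)) (not_lt.2 k3)
    have := mul_nonpos_of_nonneg_of_nonpos (mul_pos hs e0).le k4
    nlinarith
  intro t ht
  have k := this t ht ()
  have e : exp (-c * (t - a)) * exp (c * (t - a)) = 1 := by rw [← exp_add]; simp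
  have := mul_le_mul_of_nonneg_right (sub_nonpos.1 k) (exp_pos (c * (t - a))).le
  rwa [mul_assoc, e, mul_one] at this

/-- the Nash ODE, backward in time -/
theorem nash_ode_rev {N N' : ℝ → ℝ} {a b D c : ℝ} (hD : 0 < D) (hc : 0 ≤ c)
    (hd : ∀ t ∈ Icc a b, HasDerivWithinAt N (N' t) (Icc a b) t) (h0 : ∀ t ∈ Icc a b, 0 ≤ N t)
    (h : ∀ t ∈ Icc a b, N t * √(N t) ≤ D * (c * N t + N' t)) :
    ∀ t ∈ Icc a b, (b - t) ^ 2 * N t ≤ 4 * D ^ 2 * exp (c * (b - t)) := by
  have hr : HasDt (-b) (-a) (fun t (_ : Unit) => N (-t)) fun t _ => -N' (-t) :=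
    HasDt.rev (f := fun t (_ : Unit) => N t) (f' := fun t _ => N' t) fun t ht _ => hd t ht
  have m : ∀ t ∈ Icc (-b) (-a), -t ∈ Icc a b := fun t ht => ⟨by linarith [ht.2], by linarith [ht.1]⟩
  intro t ht
  have := nash_ode (N := fun t => N (-t)) (N' := fun t => -N' (-t)) hD hc
    (fun t ht => hr t ht ()) (fun t ht => h0 _ (m t ht))
    (fun t ht => by simpa using h _ (m t ht)) (-t) ⟨by linarith [ht.2], by linarith [ht.1]⟩
  simp only [neg_neg] at this
  rwa [show -t - -b = b - t by ring] at this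

namespace HC

variable {M : Type*} [TopologicalSpace M] [CompactSpace M] [MeasurableSpace M]
  [OpensMeasurableSpace M] {H : HC M}

namespace Alg

variable (A : H.Alg) {a b : ℝ}
include A

/-- growth of the mass of a nonnegative heat solution -/
theorem heat_mass (I : H.Intg) {K : ℝ} (hK : ∀ t ∈ Ioo 0 H.T, ∀ x, |H.R t x| ≤ K) (hs : H.St a b)
    {u : ℝ → M → ℝ} (hu : H.Heat a b u) (h0 : ∀ x, 0 ≤ u a x) : ∀ t ∈ Icc a b,
      ∫ x, u t x ∂H.vol t ≤ exp (K * (t - a)) * ∫ x, u a x ∂H.vol a := by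
  have hp := A.heat_ge hs hu h0
  have hd := I.int_dt hs hu.1 hu.2
  have := anti_of_deriv (φ := fun t => exp (-K * (t - a)) * ∫ x, u t x ∂H.vol t)
    (fun t ht => ((((hasDerivAt_id t).sub_const a).const_mul (-K)).exp.hasDerivWithinAt).mul
      (hd t ht)) fun t ht => by
      have ht' := Ioo_subset_Icc_self ht
      have hm := hs.mem ht'
      have s := A.sm_s0 hu.1 t ht'
      rw [integral_sub (A.integrable I hm (A.s0_lap hm s)) (A.integrable I hm
        (A.s0_mul (A.s0_R hm) s)), I.int_lap t hm s]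
      have k := (abs_le.1 (A.int_R_sq I hm (hK t hm) s (hp t ht'))).1
      have e0 := exp_pos (-K * (t - a))
      simp only [id] at *
      nlinarith
  intro t ht
  have k := this ⟨le_rfl, hs.2.1.le⟩ ht ht.1
  simp only [sub_self, mul_zero, exp_zero, one_mul] at k
  have e : exp (K * (t - a)) * exp (-K * (t - a)) = 1 := by rw [← exp_add]; simp
  have := mul_le_mul_of_nonneg_left k (exp_pos (K * (t - a))).le
  rwa [← mul_assoc, e, one_mul] at this

/-- derivative of the square integral -/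
theorem sq_dt (I : H.Intg) (hs : H.St a b) {u : ℝ → M → ℝ} (hu : H.Sm a b u) (σ ρ : ℝ)
    (hd : HasDt a b u fun t x => σ * H.lap t (u t) x + ρ * (H.R t x * u t x)) : ∀ t ∈ Icc a b,
    HasDerivWithinAt (fun s => ∫ x, u s x ^ 2 ∂H.vol s)
      (-(2 * σ) * ∫ x, H.gam t (u t) (u t) x ∂H.vol t +
        (2 * ρ - 1) * ∫ x, H.R t x * u t x ^ 2 ∂H.vol t) (Icc a b) t := by
  intro t ht
  have hm := hs.mem ht
  have s := A.sm_s0 hu t ht
  have h1 := I.int_dt hs (A.sm_pow 2 hu) (hd.comp' (φ := fun y => y ^ 2) (φ' := fun y => 2 * y)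
    fun t _ x => by simpa using hasDerivAt_pow 2 (u t x)) t ht
  convert h1 using 1
  have e : ∀ x, 2 * u t x * (σ * H.lap t (u t) x + ρ * (H.R t x * u t x)) - H.R t x * u t x ^ 2 =
      2 * σ * (u t x * H.lap t (u t) x) + (2 * ρ - 1) * (H.R t x * u t x ^ 2) := fun x => by ring
  simp only [e]
  rw [integral_add ((A.integrable I hm (A.s0_mul s (A.s0_lap hm s))).const_mul _)
    ((A.integrable I hm (A.s0_mul (A.s0_R hm) (A.s0_pow 2 s))).const_mul _), integral_const_mul,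
    integral_const_mul, I.ibp t hm s s]
  ring

/-- the Nash inequality in ODE form -/
theorem nash_form (I : H.Intg) {t K τ0 α L : ℝ} (ht : t ∈ Ioo 0 H.T) (hK : ∀ x, |H.R t x| ≤ K)
    (hτ : 0 < τ0) (hL : Sob.LS (H.vol t) H.S0 (fun w => H.gam t w w) τ0 α) {u : M → ℝ}
    (hu : H.S0 u) (hp : ∀ x, 0 ≤ u x) (hm : ∫ x, u x ∂H.vol t ≤ L) {ρ : ℝ} (hρ : |ρ| ≤ 1) :
    (∫ x, u x ^ 2 ∂H.vol t) * √(∫ x, u x ^ 2 ∂H.vol t) ≤ 2 * exp ((α + 1) / 2) * L *
      ((K + 1 / (2 * τ0)) * ∫ x, u x ^ 2 ∂H.vol t +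
        (2 * ∫ x, H.gam t u u x ∂H.vol t + ρ * ∫ x, H.R t x * u x ^ 2 ∂H.vol t)) := by
  have := I.fin t ht
  have k1 := hL.nash0 (A.sobSt ht) hτ hu hp
  have k2 := A.int_R_sq I ht hK (A.s0_pow 2 hu) fun x => sq_nonneg _
  have hE : 0 ≤ ∫ x, H.gam t u u x ∂H.vol t := integral_nonneg (A.gam_nonneg t ht hu)
  have hN : 0 ≤ ∫ x, u x ^ 2 ∂H.vol t := integral_nonneg fun x => sq_nonneg _
  have hm0 : 0 ≤ ∫ x, u x ∂H.vol t := integral_nonneg hp
  set N := ∫ x, u x ^ 2 ∂H.vol t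
  set E := ∫ x, H.gam t u u x ∂H.vol t
  set r := ∫ x, H.R t x * u x ^ 2 ∂H.vol t
  have k3 : |ρ * r| ≤ K * N := by
    rw [abs_mul]; exact (mul_le_of_le_one_left (abs_nonneg _) hρ).trans k2
  have k4 : 4 * E + N / τ0 ≤ 2 * ((K + 1 / (2 * τ0)) * N + (2 * E + ρ * r)) := by
    have : 2 * (1 / (2 * τ0) * N) = N / τ0 := by field_simp
    nlinarith [(abs_le.1 k3).1]
  refine k1.trans ?_
  have := mul_le_mul hm k4 (by positivity) (hm0.trans hm)
  nlinarith [mul_le_mul_of_nonneg_left this (exp_pos ((α + 1) / 2)).le]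

end Alg

/-- pairing bound between a heat and a conjugate heat solution -/
theorem pair_bound (A : H.Alg) (I : H.Intg) (E : H.Evo) {t0 : ℝ} (U : H.ULS t0) :
    ∃ C, 0 < C ∧ ∀ {a b : ℝ} {u v : ℝ → M → ℝ}, t0 ≤ a → H.St a b → H.Heat a b u →
      H.Conj a b v → (∀ x, 0 ≤ u a x) → (∀ x, 0 ≤ v b x) → ∀ L L' : ℝ, 0 < L → 0 < L' →
      ∫ x, u a x ∂H.vol a ≤ L → ∫ x, v b x ∂H.vol b ≤ L' → ∀ t ∈ Icc a b,
      ∫ x, u t x * v t x ∂H.vol t ≤ C / (b - a) ^ 2 * L * L' := by
  obtain ⟨τ0, α, hτ, hL⟩ := U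
  obtain ⟨K0, hK0⟩ := E.R_bd
  have hK : ∀ t ∈ Ioo 0 H.T, ∀ x, |H.R t x| ≤ |K0| := fun t ht x =>
    (hK0 t ht x).trans (le_abs_self _)
  have K0' := abs_nonneg K0
  set K := |K0|
  set c := K + 1 / (2 * τ0) with hc
  have c0 : 0 ≤ c := by positivity
  set κ := 2 * exp ((α + 1) / 2) * exp (K * H.T) with hκ
  have κ0 : 0 < κ := by positivity
  refine ⟨16 * κ ^ 2 * exp (c * H.T), by positivity,
    fun {a b u v} h0 hs hu hv pu pv L L' l0 l0' l1 l1' t ht => ?_⟩
  have LS : ∀ t ∈ Icc a b, Sob.LS (H.vol t) H.S0 (fun w => H.gam t w w) τ0 α :=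
    fun t ht => hL t ⟨h0.trans ht.1, (hs.mem ht).2⟩
  have pu' := A.heat_ge hs hu pu
  have pv' := A.conj_nonneg E hs hv pv
  have eT : 1 ≤ exp (K * H.T) := one_le_exp (mul_nonneg K0' A.T_pos.le)
  have b1 := nash_ode (D := κ * L) (c := c) (by positivity) c0
    (A.sq_dt I hs hu.1 1 0 (hu.2.congr_d fun t _ x => by simp))
    (fun t _ => integral_nonneg fun x => sq_nonneg _) fun t ht => by
      have m1 : ∫ x, u t x ∂H.vol t ≤ exp (K * H.T) * L := by
        refine (A.heat_mass I hK hs hu pu t ht).trans (mul_le_mul (exp_le_exp.2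
          (mul_le_mul_of_nonneg_left ?_ K0')) l1 (integral_nonneg pu) (exp_pos _).le)
        linarith [(hs.mem ht).2, hs.1]
      have := A.nash_form I (hs.mem ht) (hK t (hs.mem ht)) hτ (LS t ht) (A.sm_s0 hu.1 t ht)
        (pu' t ht) m1 (ρ := 1) (by simp)
      convert this using 1
      rw [hκ]; ring
  have b2 := nash_ode_rev (D := κ * L') (c := c) (by positivity) c0
    (A.sq_dt I hs hv.1 (-1) 1 (hv.2.congr_d fun t _ x => by simp))
    (fun t _ => integral_nonneg fun x => sq_nonneg _) fun t ht => by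
      have m1 : ∫ x, v t x ∂H.vol t ≤ exp (K * H.T) * L' := by
        rw [A.conj_mass I hs hv ht ⟨hs.2.1.le, le_rfl⟩]
        exact l1'.trans (le_mul_of_one_le_left l0'.le eT)
      have := A.nash_form I (hs.mem ht) (hK t (hs.mem ht)) hτ (LS t ht) (A.sm_s0 hv.1 t ht)
        (pv' t ht) m1 (ρ := 1) (by simp)
      convert this using 1
      rw [hκ]; ring
  have hab := sub_pos.2 hs.2.1
  set m := (a + b) / 2 with hm
  have mm : m ∈ Icc a b := ⟨by linarith, by linarith⟩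
  have c1 := b1 m mm
  have c2 := b2 m mm
  rw [show m - a = (b - a) / 2 by rw [hm]; ring] at c1
  rw [show b - m = (b - a) / 2 by rw [hm]; ring] at c2
  have eb : exp (c * ((b - a) / 2)) ≤ exp (c * H.T) :=
    exp_le_exp.2 (mul_le_mul_of_nonneg_left (by linarith [hs.1, hs.2.2]) c0)
  have c1' := c1.trans (mul_le_mul_of_nonneg_left eb (by positivity))
  have c2' := c2.trans (mul_le_mul_of_nonneg_left eb (by positivity))
  rw [A.dual I hs hu hv ht mm]
  have su := A.sm_s0 hu.1 m mm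
  have sv := A.sm_s0 hv.1 m mm
  have iu := A.integrable I (hs.mem mm) (A.s0_pow 2 su)
  have iv := A.integrable I (hs.mem mm) (A.s0_pow 2 sv)
  have cs : 2 * (L * L') * ∫ x, u m x * v m x ∂H.vol m ≤
      L' ^ 2 * ∫ x, u m x ^ 2 ∂H.vol m + L ^ 2 * ∫ x, v m x ^ 2 ∂H.vol m := by
    rw [← integral_const_mul, ← integral_const_mul, ← integral_const_mul,
      ← integral_add (iu.const_mul _) (iv.const_mul _)]
    exact integral_mono ((A.integrable I (hs.mem mm) (A.s0_mul su sv)).const_mul _)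
      ((iu.const_mul _).add (iv.const_mul _)) fun x => by
        nlinarith [sq_nonneg (L' * u m x - L * v m x)]
  rw [mul_assoc, div_mul_eq_mul_div, le_div_iff₀ (by positivity)]
  have LL : 0 < L * L' := mul_pos l0 l0'
  refine le_of_mul_le_mul_left ?_ LL
  nlinarith [mul_le_mul_of_nonneg_left cs (sq_nonneg (b - a)),
    mul_le_mul_of_nonneg_left c1' (sq_nonneg L'), mul_le_mul_of_nonneg_left c2' (sq_nonneg L)]

theorem le_of_two {x c m : ℝ} (hc : 0 ≤ c) (h : ∀ δ > 0, x - δ ≤ c * (m + δ)) : x ≤ c * m := by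
  refine le_of_forall_pos_le_add fun ε hε => ?_
  have := h (ε / (c + 1)) (by positivity)
  have e : ε = (c + 1) * (ε / (c + 1)) := by field_simp
  nlinarith

/-- `L¹ → L^∞` for the heat equation -/
theorem kerH (A : H.Alg) (I : H.Intg) (E : H.Evo) (S : H.Solv) (U : ∀ t0 > 0, H.ULS t0) :
    H.KerH := fun t0 h0 => by
  obtain ⟨C, hC, h⟩ := pair_bound A I E (U t0 h0)
  refine ⟨C, hC, fun {a b u} ha hs hu pu t ht y => le_of_two (by positivity) fun δ hδ => ?_⟩
  have hs' : H.St a t := hs.mono le_rfl ht.1 ht.2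
  have hu' := A.heat_mono hu le_rfl ht.2
  have tm : t ∈ Icc a t := ⟨ht.1.le, le_rfl⟩
  obtain ⟨w, sw, w0, w1, hw⟩ := N207.E.exists_bump A I (hs'.mem tm) (A.sm_s0 hu'.1 t tm) y hδ
  obtain ⟨v, hv, rfl⟩ := S.conj hs' sw
  have m0 : 0 ≤ ∫ x, u a x ∂H.vol a := integral_nonneg pu
  have := h ha hs' hu' hv pu w0 (∫ x, u a x ∂H.vol a + δ) 1 (by positivity) one_pos
    (by linarith) w1.le t tm
  linarith

/-- `L¹ → L^∞` for the conjugate heat equation -/
theorem kerC (A : H.Alg) (I : H.Intg) (E : H.Evo) (S : H.Solv) (U : ∀ t0 > 0, H.ULS t0) :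
    H.KerC := fun t0 h0 => by
  obtain ⟨C, hC, h⟩ := pair_bound A I E (U t0 h0)
  refine ⟨C, hC, fun {a b v} ha hs hv pv s ht y => le_of_two (by positivity) fun δ hδ => ?_⟩
  have hs' : H.St s b := hs.mono ht.1 ht.2 le_rfl
  have hv' := A.conj_mono hv ht.1 le_rfl
  have tm : s ∈ Icc s b := ⟨le_rfl, ht.2.le⟩
  obtain ⟨w, sw, w0, w1, hw⟩ := N207.E.exists_bump A I (hs'.mem tm) (A.sm_s0 hv'.1 s tm) y hδ
  obtain ⟨u, hu, rfl⟩ := S.heat hs' sw
  have m0 : 0 ≤ ∫ x, v b x ∂H.vol b := integral_nonneg pv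
  have := h (ha.trans ht.1) hs' hu hv' w0 pv 1 (∫ x, v b x ∂H.vol b + δ) one_pos (by positivity)
    w1.le (by linarith) s tm
  simp only [mul_comm (u s _)] at this
  linarith


/-- uniform Sobolev inequality -/
theorem sobU (A : H.Alg) (I : H.Intg) (U : ∀ t0 > 0, H.ULS t0) : H.SobU := fun t0 h0 => by
  obtain ⟨τ0, α, hτ, hL⟩ := U t0 h0
  have := Sob.Lσ_pos
  refine ⟨2048 * exp ((α + 1) / 2) * Sob.Lσ + 512 * exp ((α + 1) / 2) / τ0, by positivity,
    fun t ht w hw => ?_⟩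
  have hm : t ∈ Ioo 0 H.T := ⟨h0.trans_le ht.1, ht.2⟩
  have := I.fin t hm
  have k := ((hL t ht).fk (A.sobSt hm) hτ).sob (A.sobSt hm) hτ (exp_pos _).le w hw
  have hE : 0 ≤ ∫ x, H.gam t w w x ∂H.vol t := integral_nonneg (A.gam_nonneg t hm hw)
  have hN : 0 ≤ ∫ x, w x ^ 2 ∂H.vol t := integral_nonneg fun x => sq_nonneg _
  have p1 : 0 ≤ 2048 * exp ((α + 1) / 2) * Sob.Lσ := by positivity
  have p2 : 0 ≤ 512 * exp ((α + 1) / 2) / τ0 := by positivity
  nlinarith [mul_nonneg p1 hN, mul_nonneg p2 hE]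

end HC

end Crest.Agent.N207

end
end

-- ▼ part N207/C/Kap
section

/-! Row 207, block C: static cutoffs and the uniform lower volume bound (no collapsing). -/

set_option autoImplicit false
set_option linter.dupNamespace false
set_option linter.unusedSectionVars false
open Set MeasureTheory Filter Topology Real
open scoped ContDiff

noncomputable section

namespace Crest.Agent.N207

namespace HC

variable {M : Type*} [TopologicalSpace M] [CompactSpace M] [MeasurableSpace M]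
  [OpensMeasurableSpace M] {H : HC M}

theorem Dist.isOpen_B (D : H.Dist) {t : ℝ} (ht : t ∈ Ioo 0 H.T) (x : M) (r : ℝ) :
    IsOpen (H.B t x r) := isOpen_lt (D.cont t ht x) continuous_const

theorem Dist.meas_B (D : H.Dist) {t : ℝ} (ht : t ∈ Ioo 0 H.T) (x : M) (r : ℝ) :
    MeasurableSet (H.B t x r) := (D.isOpen_B ht x r).measurableSet

theorem Dist.mem_B (D : H.Dist) {t : ℝ} (ht : t ∈ Ioo 0 H.T) (x : M) {r : ℝ} (hr : 0 < r) :
    x ∈ H.B t x r := by
  show H.d t x x < r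
  rw [D.self t ht]; exact hr

omit [TopologicalSpace M] [CompactSpace M] [OpensMeasurableSpace M] in
theorem B_mono (t : ℝ) (x : M) {r s : ℝ} (h : r ≤ s) : H.B t x r ⊆ H.B t x s :=
  fun _ hy => lt_of_lt_of_le hy h

/-- a static cutoff: `1` on `B(x, ρ)`, `0` off `B(x, ρ + s)`, gradient `≤ C / s` -/
theorem exists_cut (A : H.Alg) (D : H.Dist) {t : ℝ} (ht : t ∈ Ioo 0 H.T) (x : M) (ρ : ℝ) {s : ℝ}
    (hs : 0 < s) : ∃ w, H.S0 w ∧ (∀ y, 0 ≤ w y) ∧ (∀ y, w y ≤ 1) ∧ (∀ y ∈ H.B t x ρ, w y = 1) ∧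
      (∀ y ∉ H.B t x (ρ + s), w y = 0 ∧ H.gam t w w y = 0) ∧
      ∀ y, H.gam t w w y ≤ 16 * Sob.Lσ / s ^ 2 := by
  obtain ⟨u, su, gu, au⟩ := D.approx t ht x (s / 4) (by positivity)
  obtain ⟨hS, hG⟩ := (A.sobSt ht).step su 1 (-(4 / s)) (4 * ρ / s + 2)
  refine ⟨_, hS, fun y => ?_, fun y => ?_, fun y hy => ?_, fun y hy => ?_, fun y => ?_⟩
  · simpa using Real.smoothTransition.nonneg _
  · simpa using Real.smoothTransition.le_one _
  · have h1 : H.d t x y < ρ := hy
    have h2 := (abs_le.1 (au y)).2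
    rw [one_mul]
    refine Real.smoothTransition.one_of_one_le ?_
    have : -(4 / s) * u y + (4 * ρ / s + 2) = 1 + 4 * (ρ + s / 4 - u y) / s := by
      field_simp; ring
    rw [this]
    have : 0 ≤ 4 * (ρ + s / 4 - u y) / s := div_nonneg (by linarith) hs.le
    linarith
  · have h1 : ρ + s ≤ H.d t x y := not_lt.1 hy
    have h2 := (abs_le.1 (au y)).1
    have h3 : -(4 / s) * u y + (4 * ρ / s + 2) < 0 := by
      have : -(4 / s) * u y + (4 * ρ / s + 2) = -1 - 4 * (u y - (ρ + 3 * s / 4)) / s := by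
        field_simp; ring
      rw [this]
      have : 0 ≤ 4 * (u y - (ρ + 3 * s / 4)) / s := div_nonneg (by linarith) hs.le
      linarith
    refine ⟨by rw [one_mul]; exact Real.smoothTransition.zero_of_nonpos h3.le, ?_⟩
    rw [hG, Sob.σ_deriv_zero (Or.inl h3)]; simp
  · rw [hG]
    have h1 := Sob.σ_deriv_le (-(4 / s) * u y + (4 * ρ / s + 2))
    have h2 := A.gam_nonneg t ht su y
    have e : (1 * -(4 / s) * deriv Sob.σ (-(4 / s) * u y + (4 * ρ / s + 2))) ^ 2 =
        16 / s ^ 2 * deriv Sob.σ (-(4 / s) * u y + (4 * ρ / s + 2)) ^ 2 := by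
      field_simp; ring
    rw [e]
    calc _ ≤ 16 / s ^ 2 * Sob.Lσ * 1 := by
          have := Sob.Lσ_pos
          exact mul_le_mul (mul_le_mul_of_nonneg_left h1 (by positivity)) (gu y) h2 (by positivity)
      _ = _ := by ring

/-- the integral of a cutoff is at most the volume of its support -/
theorem int_cut_le (A : H.Alg) (I : H.Intg) {t : ℝ} (ht : t ∈ Ioo 0 H.T) {w : M → ℝ}
    (hw : H.S0 w) {B : Set M} (hB : MeasurableSet B) {c : ℝ} (h1 : ∀ y, w y ≤ c)
    (h0 : ∀ y ∉ B, w y = 0) : ∫ y, w y ∂H.vol t ≤ c * (H.vol t).real B := by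
  have := I.fin t ht
  have e : c * (H.vol t).real B = ∫ y, B.indicator (fun _ => c) y ∂H.vol t := by
    rw [integral_indicator_const _ hB, smul_eq_mul, mul_comm]
  rw [e]
  refine integral_mono (A.integrable I ht hw) ((integrable_const c).indicator hB) fun y => ?_
  by_cases hy : y ∈ B
  · simpa [hy] using h1 y
  · simp [hy, h0 y hy]

/-- the heat flow of a cutoff stays large at the centre for a parabolic time -/
theorem heat_cutK (A : H.Alg) (E : H.Evo) (S : H.Solv) (D : H.Dist) : ∃ η, 0 < η ∧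
    ∀ {a b : ℝ}, H.St a b → ∀ x ρ s, 0 < s → ∃ u, H.Heat a b u ∧ (∀ y, 0 ≤ u a y) ∧
      (∀ y, u a y ≤ 1) ∧ (∀ y ∉ H.B a x (ρ + s), u a y = 0) ∧
      ∀ t ∈ Icc a b, t - a ≤ η * s ^ 2 → ∀ y ∈ H.B a x ρ, 1 / 2 ≤ u t y := by
  obtain ⟨C, hC, hm⟩ := A.heat_move E
  have hL := Sob.Lσ_pos
  set l := √(16 * Sob.Lσ) with hl
  have l0 : 0 < l := sqrt_pos.2 (by positivity)
  have l2 : l ^ 2 = 16 * Sob.Lσ := sq_sqrt (by positivity)
  refine ⟨(1 / (2 * C * l)) ^ 2, by positivity, fun {a b} hs x ρ s s0 => ?_⟩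
  have ha : a ∈ Icc a b := ⟨le_rfl, hs.2.1.le⟩
  obtain ⟨w, sw, w0, w1, win, wout, wg⟩ := exists_cut A D (hs.mem ha) x ρ s0
  obtain ⟨u, hu, rfl⟩ := S.heat hs sw
  refine ⟨u, hu, w0, w1, fun y hy => (wout y hy).1, fun t ht h y hy => ?_⟩
  have hv : H.Heat a b fun t y => s / l * u t y :=
    ⟨A.sm_cmul _ hu.1, (hu.2.cmul _).congr_d fun t ht y =>
      A.lap_cmul (hs.mem ht) _ (A.sm_s0 hu.1 t ht) y⟩
  have k := hm hs hv (fun y => by
    rw [A.gam_cmul (hs.mem ha) _ sw (A.s0_cmul _ sw), A.gam_cmul' (hs.mem ha) _ sw sw]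
    have := mul_le_mul_of_nonneg_left (wg y) (sq_nonneg (s / l))
    have e : (s / l) ^ 2 * (16 * Sob.Lσ / s ^ 2) = 1 := by rw [← l2]; field_simp
    nlinarith) a ha t ht ht.1 y
  have k2 : √(t - a) ≤ 1 / (2 * C * l) * s :=
    sqrt_le_iff.2 ⟨by positivity, by rw [mul_pow]; exact h⟩
  have k3 : C * √(t - a) ≤ s / l * (1 / 2) := by
    refine (mul_le_mul_of_nonneg_left k2 hC.le).trans_eq ?_
    field_simp
  have k4 := (abs_le.1 (k.trans k3)).1
  simp only [win y hy] at k4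
  have p : 0 < s / l := by positivity
  by_contra hn
  nlinarith [mul_lt_mul_of_pos_left (not_le.1 hn) p]

/-- lower volume bound when there is room forward in time -/
theorem vol_fwd (A : H.Alg) (I : H.Intg) (E : H.Evo) (S : H.Solv) (D : H.Dist) (K : H.KerH)
    {t : ℝ} (ht : t ∈ Ioo 0 H.T) (x : M) : ∃ c s0 : ℝ, 0 < c ∧ 0 < s0 ∧ ∀ s, 0 < s → s ≤ s0 →
      c * s ^ 4 ≤ (H.vol t).real (H.B t x s) := by
  obtain ⟨η, hη, h⟩ := heat_cutK A E S D
  obtain ⟨C, hC, hk⟩ := K t ht.1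
  have hT := sub_pos.2 ht.2
  refine ⟨η ^ 2 / (32 * C), √((H.T - t) / η), by positivity, sqrt_pos.2 (by positivity),
    fun s s0 s1 => ?_⟩
  have s2 : η * s ^ 2 ≤ H.T - t := by
    have := (le_sqrt s0.le (by positivity)).1 s1
    rwa [le_div_iff₀ hη, mul_comm] at this
  have p : 0 < η * (s / 2) ^ 2 := by positivity
  have hs : H.St t (t + η * (s / 2) ^ 2) := ⟨ht.1, by linarith, by nlinarith⟩
  obtain ⟨u, hu, u0, u1, uo, ub⟩ := h hs x (s / 2) (s / 2) (by positivity)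
  rw [add_halves] at uo
  have k1 := ub _ ⟨hs.2.1.le, le_rfl⟩ (by linarith) x (D.mem_B ht x (by positivity))
  have k2 := hk le_rfl hs hu u0 _ ⟨hs.2.1, le_rfl⟩ x
  have k3 := int_cut_le A I ht (A.sm_s0 hu.1 t ⟨le_rfl, hs.2.1.le⟩) (D.meas_B ht x s) u1 uo
  rw [add_sub_cancel_left] at k2
  have k4 := k1.trans (k2.trans (mul_le_mul_of_nonneg_left k3 (by positivity)))
  rw [one_mul, div_mul_eq_mul_div, le_div_iff₀ (by positivity)] at k4
  rw [div_mul_eq_mul_div, div_le_iff₀ (by positivity)]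
  nlinarith

/-- **no collapsing** -/
theorem volLo' (A : H.Alg) (I : H.Intg) (E : H.Evo) (S : H.Solv) (D : H.Dist)
    (U : ∀ t0 > 0, H.ULS t0) : H.VolLo := fun t0 h0 => by
  obtain ⟨τ0, α, hτ, hL⟩ := U t0 h0
  have hl := Sob.Lσ_pos
  set m := min 1 √τ0 with hm
  have m0 : 0 < m := lt_min one_pos (sqrt_pos.2 hτ)
  set κ := 1 / (32 * (exp ((α + 1) / 2) * (4 * (64 * Sob.Lσ) + 1))) ^ 2 with hκ
  refine ⟨κ * m ^ 4, by positivity, fun t ht x r hr => ?_⟩
  have hm' : t ∈ Ioo 0 H.T := ⟨h0.trans_le ht.1, ht.2⟩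
  have := I.fin t hm'
  have r0 := hr.1
  have k := ((hL t ht).fk (A.sobSt hm') hτ).vol_lower (A.sobSt hm') hτ (exp_pos _)
    (c1 := 64 * Sob.Lσ) (r := m * r) (by positivity) (B := H.B t x) (D.meas_B hm' x)
    (by positivity) (by
      have h1 : m * r ≤ √τ0 := (mul_le_of_le_one_right m0.le hr.2).trans (min_le_right _ _)
      exact (le_sqrt (by positivity) hτ.le).1 h1)
    (fun s s0 _ => by
      obtain ⟨w, sw, w0, w1, win, wout, wg⟩ := exists_cut A D hm' x (s / 2) (half_pos s0)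
      rw [add_halves] at wout
      exact ⟨w, sw, w0, w1, win, wout, fun y => (wg y).trans_eq (by field_simp; norm_num)⟩)
    (vol_fwd A I E S D (kerH A I E S U) hm' x)
  calc κ * m ^ 4 * r ^ 4 = (m * r) ^ 4 / (32 * (exp ((α + 1) / 2) * (4 * (64 * Sob.Lσ) + 1))) ^ 2 := by
        rw [hκ]; ring
    _ ≤ _ := k
    _ ≤ _ := measureReal_mono (B_mono t x (mul_le_of_le_one_left r0.le (min_le_left _ _)))

theorem volLo (h : H.Ok) : H.VolLo :=
  volLo' h.alg h.int h.evo h.solv h.dist fun _ h0 => uls h h0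

theorem Ok.kerH (h : H.Ok) : H.KerH := HC.kerH h.alg h.int h.evo h.solv fun _ h0 => uls h h0

theorem Ok.kerC (h : H.Ok) : H.KerC := HC.kerC h.alg h.int h.evo h.solv fun _ h0 => uls h h0

theorem Ok.sobU (h : H.Ok) : H.SobU := HC.sobU h.alg h.int fun _ h0 => uls h h0

end HC

end Crest.Agent.N207

end
end

-- ▼ part N207/C/VolUp

/-! Row 207, block C: the uniform upper volume bound (no inflation). -/

set_option autoImplicit false
set_option linter.dupNamespace false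
set_option linter.unusedSectionVars false
open Set MeasureTheory Filter Topology Real
open scoped ContDiff

noncomputable section

namespace Crest.Agent.N207

namespace HC

variable {M : Type*} [TopologicalSpace M] [CompactSpace M] [MeasurableSpace M]
  [OpensMeasurableSpace M] {H : HC M}

/-- total volume bound -/
theorem vol_tot (A : H.Alg) (I : H.Intg) (E : H.Evo) {t0 : ℝ} (h0 : 0 < t0) :
    ∃ V, 0 < V ∧ ∀ t ∈ Ico t0 H.T, (H.vol t).real univ ≤ V := by
  obtain ⟨K, hK⟩ := E.R_bd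
  have hK' : ∀ t ∈ Ioo 0 H.T, ∀ x, |H.R t x| ≤ |K| := fun t ht x =>
    (hK t ht x).trans (le_abs_self _)
  refine ⟨exp (|K| * H.T) * (H.vol (t0 / 2)).real univ + 1, by positivity, fun t ht => ?_⟩
  have hs : H.St (t0 / 2) t := ⟨by linarith, by linarith [ht.1], ht.2⟩
  have := A.heat_mass I hK' hs (A.heat_const hs 1) (fun _ => zero_le_one) t ⟨hs.2.1.le, le_rfl⟩
  simp only [integral_const, smul_eq_mul, mul_one] at this
  have e : exp (|K| * (t - t0 / 2)) ≤ exp (|K| * H.T) :=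
    exp_le_exp.2 (mul_le_mul_of_nonneg_left (by linarith [ht.2]) (abs_nonneg _))
  nlinarith [mul_le_mul_of_nonneg_right e (measureReal_nonneg (μ := H.vol (t0 / 2)) (s := univ))]

/-- a density with small Nash entropy is large somewhere -/
theorem exists_large (A : H.Alg) (I : H.Intg) {t τ : ℝ} (ht : t ∈ Ioo 0 H.T) (hτ : 0 < τ)
    {v : M → ℝ} (hv : H.S0 v) (hp : ∀ y, 0 < v y) (hm : ∫ y, v y ∂H.vol t = 1)
    (hN : H.Na t τ v < 1) : ∃ y, exp (-3) / (4 * π * τ) ^ 2 ≤ v y := by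
  by_contra! hn
  have : ∫ y, 3 * v y ∂H.vol t ≤ ∫ y, pot τ v y * v y ∂H.vol t := by
    refine integral_mono (A.integrable I ht (A.s0_cmul 3 hv))
      (A.integrable I ht (A.s0_mul (A.s0_pot hv hp τ) hv)) fun y => ?_
    refine mul_le_mul_of_nonneg_right ?_ (hp y).le
    have h1 := log_lt_log (hp y) (hn y)
    have := pi_pos
    rw [log_div (exp_pos _).ne' (by positivity), log_exp, log_pow] at h1
    simp only [pot]
    push_cast at h1
    linarith
  rw [integral_const_mul, hm] at this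
  unfold Na at hN
  linarith

/-- pairing with a concentrated density -/
theorem exists_near (A : H.Alg) (I : H.Intg) (D : H.Dist) {t : ℝ} (ht : t ∈ Ioo 0 H.T) {x : M}
    {u w : M → ℝ} (hu : H.S0 u) (hw : H.S0 w) (hp : ∀ y, 0 ≤ w y) (hm : ∫ y, w y ∂H.vol t = 1)
    {ε m c : ℝ} (hc : 0 ≤ c) (m0 : 0 ≤ m) (hb : ∀ y, u y ≤ m)
    (ho : ∫ y in {y | ε ≤ H.d t x y}, w y ∂H.vol t ≤ ε)
    (h : c + m * ε < ∫ y, u y * w y ∂H.vol t) : ∃ z ∈ H.B t x ε, c ≤ u z := by
  by_contra! hn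
  have ms : MeasurableSet {y | ε ≤ H.d t x y} :=
    (isClosed_le continuous_const (D.cont t ht x)).measurableSet
  have iw := A.integrable I ht hw
  have : ∫ y, u y * w y ∂H.vol t ≤
      ∫ y, (c * w y + m * {y | ε ≤ H.d t x y}.indicator w y) ∂H.vol t := by
    refine integral_mono (A.integrable I ht (A.s0_mul hu hw))
      ((iw.const_mul c).add ((iw.indicator ms).const_mul m)) fun y => ?_
    by_cases hy : ε ≤ H.d t x y
    · have : {y | ε ≤ H.d t x y}.indicator w y = w y := indicator_of_mem (by exact hy) _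
      simp only [this]
      nlinarith [hp y, hb y, mul_nonneg hc (hp y)]
    · have : {y | ε ≤ H.d t x y}.indicator w y = 0 := indicator_of_notMem (by exact hy) _
      simp only [this]
      nlinarith [hp y, hn y (not_le.1 hy)]
  rw [integral_add (iw.const_mul c) ((iw.indicator ms).const_mul m), integral_const_mul,
    integral_const_mul, hm, integral_indicator ms] at this
  nlinarith [mul_le_mul_of_nonneg_left ho m0]

/-- a heat solution of mass at most two which is large on a whole ball -/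
theorem exists_heat_large (h : H.Ok) {t0 : ℝ} (h0 : 0 < t0) : ∃ c, 0 < c ∧ ∀ t r : ℝ, 0 < r →
    t0 ≤ t - r ^ 2 → t < H.T → ∀ x, ∃ u, H.Heat (t - r ^ 2) t u ∧ (∀ y, 0 < u (t - r ^ 2) y) ∧
      ∫ y, u (t - r ^ 2) y ∂H.vol (t - r ^ 2) ≤ 2 ∧ ∀ z ∈ H.B t x r, c / r ^ 4 ≤ u t z := by
  have A := h.alg
  have I := h.int
  have E := h.evo
  have D := h.dist
  obtain ⟨C, hC, hk⟩ := h.kerH t0 h0
  have := pi_pos
  set c0 := exp (-3) / (8 * π) ^ 2 with hc0
  have c0p : 0 < c0 := by positivity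
  set Λ := (√(1 + log (32 * C / c0)) + 2) ^ 2 with hΛ
  refine ⟨8 * C * exp (-Λ), by positivity, fun t r r0 h1 h2 x => ?_⟩
  have r2 : 0 < r ^ 2 := by positivity
  set s := t - r ^ 2 with hs0
  have hs : H.St s t := ⟨h0.trans_le h1, by linarith, h2⟩
  have sm : s ∈ Icc s t := ⟨le_rfl, hs.2.1.le⟩
  have tm : t ∈ Icc s t := ⟨hs.2.1.le, le_rfl⟩
  set ε := min (min (1 / 2) (c0 / (32 * C))) (min r (r ^ 2)) with hε
  have ε0 : 0 < ε := by positivity
  have ε1 : ε ≤ 1 / 2 := (min_le_left _ _).trans (min_le_left _ _)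
  have ε2 : ε ≤ c0 / (32 * C) := (min_le_left _ _).trans (min_le_right _ _)
  have ε3 : ε ≤ r := (min_le_right _ _).trans (min_le_left _ _)
  have ε4 : ε ≤ r ^ 2 := (min_le_right _ _).trans (min_le_right _ _)
  obtain ⟨τ, τ0, τ1, w, sw, pw, mw, Ww, Nw, ow⟩ := h.bump t (hs.mem tm) x ε ε0
  obtain ⟨v, hv, rfl⟩ := h.solv.conj hs sw
  have pv := A.conj_pos E hs hv pw
  have n1 := A.Na_le I E hs hv pv τ0 mw Ww (abs_le.1 Nw).2 s sm
  have sv := A.sm_s0 hv.1 s sm
  obtain ⟨y, hy⟩ := exists_large A I (hs.mem sm) (τ := τ + t - s) (by linarith) sv (pv s sm)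
    ((A.conj_mass I hs hv sm tm).trans mw) (by linarith)
  have hy' : c0 / r ^ 4 ≤ v s y := by
    refine le_trans ?_ hy
    have e : c0 / r ^ 4 = exp (-3) / (4 * π * (2 * r ^ 2)) ^ 2 := by rw [hc0]; field_simp; ring
    rw [e]
    have : 0 < τ + t - s := by linarith
    gcongr
    linarith
  obtain ⟨b, sb, b0, b1, hb⟩ := N207.E.exists_bump A I (hs.mem sm) sv y
    (δ := c0 / (4 * r ^ 4)) (by positivity)
  have := I.fin s (hs.mem sm)
  set δ := 1 / ((H.vol s).real univ + 1) with hδ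
  have δ0 : 0 < δ := by positivity
  obtain ⟨u, hu, eu⟩ := h.solv.heat hs (A.s0_add sb (A.s0_const δ))
  have pu0 : ∀ y, 0 < u s y := fun y => by rw [eu]; have := b0 y; positivity
  have pu : ∀ t' ∈ Icc s t, ∀ y, 0 < u t' y := fun t' ht' y =>
    δ0.trans_le (A.heat_ge hs hu (fun y => by rw [eu]; linarith [b0 y]) t' ht' y)
  have mu : ∫ y, u s y ∂H.vol s ≤ 2 := by
    rw [eu, integral_add (A.integrable I (hs.mem sm) sb) (integrable_const _), b1, integral_const,
      smul_eq_mul, hδ, mul_one_div]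
    have : (H.vol s).real univ / ((H.vol s).real univ + 1) ≤ 1 :=
      (div_le_one (by positivity)).2 (by linarith)
    linarith
  refine ⟨u, hu, pu0, mu, fun z hz => ?_⟩
  set s' := t - r ^ 2 / 2 with hs1
  have hs' : H.St s' t := hs.mono (by linarith) (by linarith) le_rfl
  have hu' := A.heat_mono hu (a' := s') (by linarith) le_rfl
  set m := 8 * C / r ^ 4 with hm
  have m0 : 0 < m := by positivity
  have bm : ∀ y, u s' y ≤ m := fun y => by
    refine (hk h1 hs hu (fun y => (pu0 y).le) s' ⟨by linarith, by linarith⟩ y).trans ?_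
    refine (mul_le_mul_of_nonneg_left mu (by positivity)).trans_eq ?_
    rw [show s' - s = r ^ 2 / 2 by rw [hs1, hs0]; ring, hm]
    field_simp; ring
  have tm' : t ∈ Icc s' t := ⟨hs'.2.1.le, le_rfl⟩
  have pr : 3 * c0 / (4 * r ^ 4) ≤ ∫ y, u t y * v t y ∂H.vol t := by
    rw [← A.dual I hs hu hv sm tm]
    have : ∫ y, v s y * b y ∂H.vol s ≤ ∫ y, u s y * v s y ∂H.vol s :=
      integral_mono (A.integrable I (hs.mem sm) (A.s0_mul sv sb))
        (A.integrable I (hs.mem sm) (A.s0_mul (A.sm_s0 hu.1 s sm) sv)) fun y => by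
          rw [eu]; nlinarith [pv s sm y]
    have e : 3 * c0 / (4 * r ^ 4) = c0 / r ^ 4 - c0 / (4 * r ^ 4) := by field_simp; ring
    linarith
  obtain ⟨z0, hz0, lz0⟩ := exists_near A I D (hs.mem tm) (A.sm_s0 hu.1 t tm) sw
    (fun y => (pw y).le) mw (c := c0 / (4 * r ^ 4)) (by positivity) m0.le
    (A.heat_le hs' hu' bm t tm') ow (by
      refine lt_of_lt_of_le ?_ pr
      have k1 : m * ε ≤ c0 / (4 * r ^ 4) := by
        refine (mul_le_mul_of_nonneg_left ε2 m0.le).trans_eq ?_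
        rw [hm]; field_simp; ring
      have k2 : 0 < c0 / (4 * r ^ 4) := by positivity
      have e : 3 * c0 / (4 * r ^ 4) = 3 * (c0 / (4 * r ^ 4)) := by ring
      linarith)
  have har := A.harnack E D hs' hu' (fun t' ht' => pu t' ⟨by linarith [ht'.1], ht'.2⟩) bm
    ⟨hs'.2.1, le_rfl⟩ z0 z
  have d1 : H.d t z0 z / (2 * √(t - s')) ≤ 2 := by
    have k1 := D.tri t (hs.mem tm) z0 x z
    rw [D.symm t (hs.mem tm) z0 x] at k1
    have k2 : H.d t x z0 < ε := hz0
    have k3 : H.d t x z < r := hz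
    have k4 : r / 2 ≤ √(t - s') := le_sqrt_of_sq_le (by rw [hs1]; nlinarith)
    rw [div_le_iff₀ (by linarith)]
    linarith
  have d2 : √(1 + log m - log (u t z0)) ≤ √(1 + log (32 * C / c0)) := by
    refine sqrt_le_sqrt ?_
    have k1 := log_le_log (by positivity) lz0
    have e : log (32 * C / c0) = log m - log (c0 / (4 * r ^ 4)) := by
      rw [← log_div m0.ne' (by positivity), hm]; congr 1; field_simp; ring
    linarith
  have d3 : 1 + log m - log (u t z) ≤ Λ :=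
    (sqrt_le_left (by positivity)).1 (har.trans (add_le_add d2 d1))
  have e : 8 * C * exp (-Λ) / r ^ 4 = exp (log m - Λ) := by
    rw [sub_eq_add_neg, exp_add, exp_log m0, hm]; ring
  rw [e, ← exp_log (pu t tm z)]
  exact exp_le_exp.2 (by linarith)

/-- **no inflation** -/
theorem volUp (h : H.Ok) : H.VolUp := fun t0 h0 => by
  have A := h.alg
  have I := h.int
  obtain ⟨c, hc, h1⟩ := exists_heat_large h (half_pos h0)
  obtain ⟨V, hV, h2⟩ := vol_tot A I h.evo h0
  obtain ⟨K, hK⟩ := h.evo.R_bd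
  have hK' : ∀ t ∈ Ioo 0 H.T, ∀ x, |H.R t x| ≤ |K| := fun t ht x =>
    (hK t ht x).trans (le_abs_self _)
  refine ⟨exp (|K| * H.T) * 2 / c + V / (t0 / 2) ^ 2, by positivity, fun t ht x r r0 => ?_⟩
  have hm : t ∈ Ioo 0 H.T := ⟨h0.trans_le ht.1, ht.2⟩
  have := I.fin t hm
  have p1 : 0 ≤ exp (|K| * H.T) * 2 / c * r ^ 4 := by positivity
  have p2 : 0 ≤ V / (t0 / 2) ^ 2 * r ^ 4 := by positivity
  rw [add_mul]
  rcases le_total (r ^ 2) (t0 / 2) with hr | hr
  · obtain ⟨u, hu, pu, mu, lu⟩ := h1 t r r0 (by linarith [ht.1]) ht.2 x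
    have r2 : 0 < r ^ 2 := by positivity
    have hs : H.St (t - r ^ 2) t := ⟨by linarith [ht.1], by linarith, ht.2⟩
    have tm : t ∈ Icc (t - r ^ 2) t := ⟨hs.2.1.le, le_rfl⟩
    have k1 := A.heat_mass I hK' hs hu (fun y => (pu y).le) t tm
    have k2 : exp (|K| * (t - (t - r ^ 2))) * ∫ y, u (t - r ^ 2) y ∂H.vol (t - r ^ 2) ≤
        exp (|K| * H.T) * 2 := mul_le_mul (exp_le_exp.2 (mul_le_mul_of_nonneg_left
          (by linarith [ht.2, hs.1]) (abs_nonneg _))) mu (integral_nonneg fun y => (pu y).le)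
          (exp_pos _).le
    have k3 : c / r ^ 4 * (H.vol t).real (H.B t x r) ≤ ∫ y, u t y ∂H.vol t := by
      have mB := h.dist.meas_B hm x r
      rw [mul_comm, ← smul_eq_mul, ← integral_indicator_const _ mB]
      refine integral_mono ((integrable_const _).indicator mB)
        (A.integrable I hm (A.sm_s0 hu.1 t tm)) fun y => ?_
      by_cases hy : y ∈ H.B t x r
      · simpa [hy] using lu y hy
      · simpa [hy] using A.heat_ge hs hu (fun y => (pu y).le) t tm y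
    have k4 := k3.trans (k1.trans k2)
    rw [div_mul_eq_mul_div, div_le_iff₀ (by positivity)] at k4
    have : (H.vol t).real (H.B t x r) ≤ exp (|K| * H.T) * 2 / c * r ^ 4 := by
      rw [div_mul_eq_mul_div, le_div_iff₀ hc]; linarith
    linarith
  · have k1 : (H.vol t).real (H.B t x r) ≤ V := (measureReal_mono (subset_univ _)).trans (h2 t ht)
    have k2 : V ≤ V / (t0 / 2) ^ 2 * r ^ 4 := by
      rw [div_mul_eq_mul_div, le_div_iff₀ (by positivity)]
      refine mul_le_mul_of_nonneg_left ?_ hV.le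
      calc (t0 / 2) ^ 2 ≤ (r ^ 2) ^ 2 := pow_le_pow_left₀ (by positivity) hr 2
        _ = r ^ 4 := by ring
    linarith

end HC

end Crest.Agent.N207

end
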